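import Vale.Agent.P141.H971.Split

/-!
# P141, CE: splitting a vector valued function by mass, one fibre

For `f : ℤ → V` on an interval `B` there is an orthonormal system of at most `1 + ∑ ‖f‖² / a`
vectors such that the part of `f` orthogonal to it has operator potential at most `2 a`.
-/

namespace Vale.Agent.P141.H70

open Finset
open Vale.Agent.P141.H971 (qf nrg opn qf_nonneg nrg_nonneg qf_smul opn_le qf_le_opn opn_nonneg
  opn_congr le_opn)

noncomputable section

set_option linter.unusedSectionVars false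

variable {V : Type*} [NormedAddCommGroup V] [InnerProductSpace ℝ V]

/-- Pairwise orthogonal vectors, each of norm `0` or `1`. -/
structure Ons {ι : Type*} (e : ι → V) : Prop where
  orth : ∀ i j, i ≠ j → inner ℝ (e i) (e j) = 0
  unit : ∀ i, e i = 0 ∨ ‖e i‖ = 1

/-- The projection onto the span. -/
def prj {ι : Type*} [Fintype ι] (e : ι → V) (v : V) : V := ∑ i, (inner ℝ (e i) v : ℝ) • e i

theorem Ons.zero {ι : Type*} : Ons (fun _ : ι => (0 : V)) :=
  ⟨fun _ _ _ => by simp, fun _ => Or.inl rfl⟩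

theorem Ons.of_orthonormal {ι : Type*} {e : ι → V} (h : Orthonormal ℝ e) : Ons e :=
  ⟨fun _ _ hij => h.2 hij, fun i => Or.inr (h.1 i)⟩

theorem Ons.norm_le {ι : Type*} {e : ι → V} (h : Ons e) (i : ι) : ‖e i‖ ≤ 1 := by
  rcases h.unit i with h | h
  · rw [h, norm_zero]; exact zero_le_one
  · exact h.le

theorem Ons.self_mul {ι : Type*} {e : ι → V} (h : Ons e) (i : ι) (v : V) :
    (inner ℝ (e i) v : ℝ) * inner ℝ (e i) (e i) = inner ℝ (e i) v := by
  rcases h.unit i with h0 | h1
  · rw [h0]; simp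
  · rw [real_inner_self_eq_norm_sq, h1]; ring

section

variable {ι : Type*} [Fintype ι] {e : ι → V}

theorem Ons.inner_prj (h : Ons e) (i : ι) (v : V) :
    (inner ℝ (e i) (prj e v) : ℝ) = inner ℝ (e i) v := by
  classical
  unfold prj
  rw [inner_sum, sum_eq_single i]
  · rw [inner_smul_right]; exact h.self_mul i v
  · intro j _ hj
    rw [inner_smul_right, h.orth i j (Ne.symm hj), mul_zero]
  · intro hi; exact absurd (mem_univ i) hi

theorem prj_inner (e : ι → V) (u v : V) :
    (inner ℝ (prj e u) v : ℝ) = ∑ i, (inner ℝ (e i) u : ℝ) * inner ℝ (e i) v := by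
  unfold prj
  rw [sum_inner]
  refine sum_congr rfl fun i _ => ?_
  rw [real_inner_smul_left]

theorem prj_symm (e : ι → V) (u v : V) :
    (inner ℝ (prj e u) v : ℝ) = inner ℝ u (prj e v) := by
  rw [real_inner_comm (prj e v) u, prj_inner, prj_inner]
  exact sum_congr rfl fun i _ => mul_comm _ _

theorem Ons.prj_prj (h : Ons e) (v : V) : prj e (prj e v) = prj e v := by
  unfold prj
  refine sum_congr rfl fun i _ => ?_
  rw [show (inner ℝ (e i) (∑ j, (inner ℝ (e j) v : ℝ) • e j) : ℝ) = inner ℝ (e i) v from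
    h.inner_prj i v]

theorem Ons.inner_prj_prj (h : Ons e) (u v : V) :
    (inner ℝ (prj e u) (prj e v) : ℝ) = ∑ i, (inner ℝ (e i) u : ℝ) * inner ℝ (e i) v := by
  rw [← prj_symm, h.prj_prj, prj_inner]

theorem Ons.norm_prj_sq (h : Ons e) (v : V) :
    ‖prj e v‖ ^ 2 = ∑ i, (inner ℝ (e i) v : ℝ) ^ 2 := by
  rw [← real_inner_self_eq_norm_sq, h.inner_prj_prj]
  exact sum_congr rfl fun i _ => (sq _).symm

theorem Ons.inner_prj_sub (h : Ons e) (u v : V) :
    (inner ℝ (prj e u) (v - prj e v) : ℝ) = 0 := by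
  rw [inner_sub_right, h.inner_prj_prj, prj_inner, sub_self]

theorem Ons.inner_sub_prj (h : Ons e) (u v : V) :
    (inner ℝ (u - prj e u) (prj e v) : ℝ) = 0 := by
  rw [real_inner_comm]; exact h.inner_prj_sub v u

theorem Ons.inner_eq (h : Ons e) (u v : V) :
    (inner ℝ u v : ℝ) = inner ℝ (prj e u) (prj e v) + inner ℝ (u - prj e u) (v - prj e v) := by
  have h1 := h.inner_prj_sub u v
  have h2 := h.inner_sub_prj u v
  have h3 : (inner ℝ u v : ℝ) = inner ℝ (prj e u + (u - prj e u)) (prj e v + (v - prj e v)) := by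
    rw [add_sub_cancel, add_sub_cancel]
  rw [h3, inner_add_left, inner_add_right, inner_add_right, h1, h2]
  ring

theorem Ons.pyth (h : Ons e) (v : V) : ‖v‖ ^ 2 = ‖prj e v‖ ^ 2 + ‖v - prj e v‖ ^ 2 := by
  rw [← real_inner_self_eq_norm_sq, ← real_inner_self_eq_norm_sq, ← real_inner_self_eq_norm_sq]
  exact h.inner_eq v v

theorem Ons.norm_prj_le (h : Ons e) (v : V) : ‖prj e v‖ ≤ ‖v‖ := by
  have h1 := h.pyth v
  have h2 := sq_nonneg ‖v - prj e v‖
  exact abs_le_of_sq_le_sq' (by linarith) (norm_nonneg _) |>.2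

theorem Ons.norm_sub_le (h : Ons e) (v : V) : ‖v - prj e v‖ ≤ ‖v‖ := by
  have h1 := h.pyth v
  have h2 := sq_nonneg ‖prj e v‖
  exact abs_le_of_sq_le_sq' (by linarith) (norm_nonneg _) |>.2

theorem Ons.sum_sq_le (h : Ons e) (v : V) : ∑ i, (inner ℝ (e i) v : ℝ) ^ 2 ≤ ‖v‖ ^ 2 := by
  rw [← h.norm_prj_sq]
  exact pow_le_pow_left₀ (norm_nonneg _) (h.norm_prj_le v) 2

theorem prj_sub (e : ι → V) (u v : V) : prj e (u - v) = prj e u - prj e v := by
  unfold prj
  rw [← sum_sub_distrib]
  exact sum_congr rfl fun i _ => by rw [inner_sub_right, sub_smul]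

/-- The potential of the remaining part sees only the remaining part of the direction. -/
theorem Ons.qf_sub (h : Ons e) (B : Finset ℤ) (f : ℤ → V) (v : V) :
    qf B (fun y => f y - prj e (f y)) v = qf B f (v - prj e v) := by
  unfold qf
  refine sum_congr rfl fun y _ => ?_
  congr 1
  have h1 : (inner ℝ (f y - prj e (f y)) v : ℝ) =
      inner ℝ (f y - prj e (f y)) (prj e v + (v - prj e v)) := by
    rw [add_sub_cancel]
  have h2 : (inner ℝ (f y) (v - prj e v) : ℝ) =
      inner ℝ (prj e (f y) + (f y - prj e (f y))) (v - prj e v) := by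
    rw [add_sub_cancel]
  rw [h1, h2, inner_add_right, inner_add_left, h.inner_sub_prj, h.inner_prj_sub]

end

/-- **One fibre.** -/
theorem exists_ons {a : ℝ} (ha : 0 < a) (B : Finset ℤ) (f : ℤ → V) :
    ∃ (n : ℕ) (e : Fin n → V), Orthonormal ℝ e ∧ a * n < a + nrg B f ∧
      opn B (fun y => f y - prj e (f y)) ≤ 2 * a := by
  classical
  set S : Set ℝ := {s | ∃ (n : ℕ) (e : Fin n → V), Orthonormal ℝ e ∧
    s = ∑ y ∈ B, ‖prj e (f y)‖ ^ 2 - a * n} with hS
  have hne : S.Nonempty := ⟨0, 0, Fin.elim0, ⟨fun i => i.elim0, fun i => i.elim0⟩, by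
    simp [prj]⟩
  have hub : ∀ (n : ℕ) (e : Fin n → V), Orthonormal ℝ e →
      ∑ y ∈ B, ‖prj e (f y)‖ ^ 2 ≤ nrg B f := fun n e he =>
    sum_le_sum fun y _ => pow_le_pow_left₀ (norm_nonneg _)
      ((Ons.of_orthonormal he).norm_prj_le (f y)) 2
  have hbd : BddAbove S := by
    refine ⟨nrg B f, ?_⟩
    rintro s ⟨n, e, he, rfl⟩
    have h1 := hub n e he
    have h2 : 0 ≤ a * n := mul_nonneg ha.le (Nat.cast_nonneg n)
    linarith
  have hlt : sSup S - a < sSup S := by linarith
  obtain ⟨s, hsS, hs⟩ := exists_lt_of_lt_csSup hne hlt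
  obtain ⟨n, e, he, hse⟩ := hsS
  have h0 : (0 : ℝ) ≤ sSup S := le_csSup hbd ⟨0, Fin.elim0,
    ⟨fun i => i.elim0, fun i => i.elim0⟩, by simp [prj]⟩
  have ho := Ons.of_orthonormal he
  refine ⟨n, e, he, ?_, ?_⟩
  · have h1 := hub n e he
    linarith
  · refine opn_le fun v hv => ?_
    rw [ho.qf_sub]
    set v' := v - prj e v with hv'
    have hn : ‖v'‖ ≤ 1 := (ho.norm_sub_le v).trans hv
    rcases eq_or_ne v' 0 with hz | hz
    · rw [hz]
      unfold qf
      simp only [inner_zero_right]
      have : ∑ y ∈ B, (0 : ℝ) ^ 2 = 0 := by simp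
      rw [this]; linarith
    · have hpos : 0 < ‖v'‖ := norm_pos_iff.mpr hz
      set w := ‖v'‖⁻¹ • v' with hw
      have hw1 : ‖w‖ = 1 := by
        rw [hw, norm_smul, norm_inv, norm_norm, inv_mul_cancel₀ hpos.ne']
      have hwe : ∀ i, (inner ℝ (e i) w : ℝ) = 0 := by
        intro i
        rw [hw, inner_smul_right, hv', inner_sub_right, ho.inner_prj, sub_self, mul_zero]
      have he' : Orthonormal ℝ (Fin.cons w e : Fin (n + 1) → V) := by
        constructor
        · intro i
          refine Fin.cases ?_ (fun j => ?_) i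
          · rw [Fin.cons_zero]; exact hw1
          · rw [Fin.cons_succ]; exact he.1 j
        · intro i j
          refine Fin.cases ?_ (fun i' => ?_) i
          · refine Fin.cases ?_ (fun j' => ?_) j
            · intro h; exact absurd rfl h
            · intro _
              rw [Fin.cons_zero, Fin.cons_succ, real_inner_comm]; exact hwe j'
          · refine Fin.cases ?_ (fun j' => ?_) j
            · intro _
              rw [Fin.cons_zero, Fin.cons_succ]; exact hwe i'
            · intro h
              rw [Fin.cons_succ, Fin.cons_succ]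
              exact he.2 fun hij => h (by rw [hij])
      have hmem : (∑ y ∈ B, ‖prj (Fin.cons w e : Fin (n + 1) → V) (f y)‖ ^ 2 -
          a * ((n + 1 : ℕ) : ℝ)) ∈ S := ⟨n + 1, Fin.cons w e, he', rfl⟩
      have hle := le_csSup hbd hmem
      have hsum : ∑ y ∈ B, ‖prj (Fin.cons w e : Fin (n + 1) → V) (f y)‖ ^ 2 =
          qf B f w + ∑ y ∈ B, ‖prj e (f y)‖ ^ 2 := by
        unfold qf
        rw [← sum_add_distrib]
        refine sum_congr rfl fun y _ => ?_
        rw [(Ons.of_orthonormal he').norm_prj_sq, ho.norm_prj_sq, Fin.sum_univ_succ,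
          Fin.cons_zero, real_inner_comm]
        simp only [Fin.cons_succ]
      rw [hsum] at hle
      push_cast at hle
      have hq : qf B f w ≤ 2 * a := by linarith
      have hvw : v' = ‖v'‖ • w := by
        rw [hw, smul_smul, mul_inv_cancel₀ hpos.ne', one_smul]
      rw [hvw, qf_smul]
      have hw0 := qf_nonneg B f w
      calc ‖v'‖ ^ 2 * qf B f w ≤ 1 * qf B f w :=
            mul_le_mul_of_nonneg_right (pow_le_one₀ (norm_nonneg _) hn) hw0
        _ ≤ 2 * a := by linarith

/-- **One fibre**, the vectors in the span of the values of `f`. -/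
theorem exists_ons_span {a : ℝ} (ha : 0 < a) (B : Finset ℤ) (f : ℤ → V) :
    ∃ (n : ℕ) (e : Fin n → V), Orthonormal ℝ e ∧ (∀ i, e i ∈ Submodule.span ℝ (f '' (B : Set ℤ))) ∧
      a * n < a + nrg B f ∧ opn B (fun y => f y - prj e (f y)) ≤ 2 * a := by
  classical
  set W : Submodule ℝ V := Submodule.span ℝ (f '' (B : Set ℤ)) with hW
  have hfin : (f '' (B : Set ℤ)).Finite := B.finite_toSet.image f
  have hfd : FiniteDimensional ℝ W := FiniteDimensional.span_of_finite ℝ hfin
  have hmem : ∀ y ∈ B, f y ∈ W := fun y hy =>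
    Submodule.subset_span ⟨y, by exact_mod_cast hy, rfl⟩
  set f' : ℤ → W := fun y => if h : y ∈ B then ⟨f y, hmem y h⟩ else 0 with hf'
  have hf : ∀ y ∈ B, ((f' y : W) : V) = f y := fun y hy => by simp only [hf', dif_pos hy]
  obtain ⟨n, e, he, hn, ho⟩ := exists_ons ha B f'
  refine ⟨n, fun i => (e i : V), ?_, fun i => (e i).2, ?_, ?_⟩
  · exact he.comp_linearIsometry W.subtypeₗᵢ
  · have : nrg B f' = nrg B f := by
      unfold nrg
      refine sum_congr rfl fun y hy => ?_
      rw [← hf y hy]; rfl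
    rwa [this] at hn
  · refine opn_le fun v hv => ?_
    set v' : W := W.orthogonalProjectionOnto v with hv'
    have hv1 : ‖v'‖ ≤ 1 := (W.norm_orthogonalProjectionOnto_apply_le v).trans hv
    have h1 := le_opn B (fun y => f' y - prj e (f' y)) hv1
    refine (le_of_eq ?_).trans (h1.trans ho)
    unfold qf
    refine sum_congr rfl fun y hy => ?_
    congr 1
    have h2 : f y - prj (fun i => (e i : V)) (f y) = ((f' y - prj e (f' y) : W) : V) := by
      rw [Submodule.coe_sub, hf y hy]
      congr 1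
      unfold prj
      rw [Submodule.coe_sum]
      refine sum_congr rfl fun i _ => ?_
      rw [Submodule.coe_smul, Submodule.coe_inner, hf y hy]
    show (inner ℝ (f y - prj (fun i => (e i : V)) (f y)) v : ℝ) =
      inner ℝ (f' y - prj e (f' y)) v'
    rw [h2, ← Submodule.inner_orthogonalProjectionOnto_eq_of_mem_left]

/-- **One fibre**, with a fixed number of vectors. -/
theorem exists_ons_fin {a : ℝ} (ha : 0 < a) {n : ℕ} {B : Finset ℤ} {f : ℤ → V}
    (hn : nrg B f ≤ a * n) :
    ∃ e : Fin n → V, Ons e ∧ (∀ i, e i ∈ Submodule.span ℝ (f '' (B : Set ℤ))) ∧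
      opn B (fun y => f y - prj e (f y)) ≤ 2 * a := by
  classical
  obtain ⟨m, e, he, hsp, hm, ho⟩ := exists_ons_span ha B f
  have hmn : m ≤ n := by
    have h1 : a * m < a * (n + 1) := by linarith
    have h2 : (m : ℝ) < n + 1 := lt_of_mul_lt_mul_left h1 ha.le
    have h3 : m < n + 1 := by exact_mod_cast h2
    omega
  set e' : Fin n → V := fun i => if h : i.1 < m then e ⟨i.1, h⟩ else 0 with he'
  have hO := Ons.of_orthonormal he
  have hO' : Ons e' := by
    constructor
    · intro i j hij
      by_cases h1 : i.1 < m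
      · by_cases h2 : j.1 < m
        · simp only [he', dif_pos h1, dif_pos h2]
          refine hO.orth _ _ fun h => hij ?_
          have := congrArg Fin.val h
          exact Fin.ext this
        · simp only [he', dif_neg h2]; exact inner_zero_right _
      · simp only [he', dif_neg h1]; exact inner_zero_left _
    · intro i
      by_cases h1 : i.1 < m
      · simp only [he', dif_pos h1]; exact hO.unit _
      · simp only [he', dif_neg h1]; exact Or.inl trivial
  have hp : ∀ v, prj e' v = prj e v := by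
    intro v
    unfold prj
    have h1 : ∑ i : Fin n, (inner ℝ (e' i) v : ℝ) • e' i =
        ∑ i ∈ (univ : Finset (Fin n)).filter (fun i => i.1 < m), (inner ℝ (e' i) v : ℝ) • e' i := by
      rw [sum_filter_of_ne]
      intro i _ hne
      by_contra hcon
      apply hne
      simp only [he', dif_neg hcon, smul_zero]
    rw [h1]
    symm
    refine sum_bij (fun (i : Fin m) _ => (⟨i.1, by omega⟩ : Fin n)) ?_ ?_ ?_ ?_
    · intro i _
      rw [mem_filter]
      exact ⟨mem_univ _, i.2⟩
    · intro i _ j _ h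
      have := congrArg Fin.val h
      exact Fin.ext this
    · intro j hj
      rw [mem_filter] at hj
      exact ⟨⟨j.1, hj.2⟩, mem_univ _, rfl⟩
    · intro i _
      have : e' ⟨i.1, by omega⟩ = e i := by
        simp only [he', dif_pos i.2]
      rw [this]
  refine ⟨e', hO', fun i => ?_, ?_⟩
  · by_cases h1 : i.1 < m
    · simp only [he', dif_pos h1]; exact hsp _
    · simp only [he', dif_neg h1]; exact Submodule.zero_mem _
  have : (fun y => f y - prj e' (f y)) = fun y => f y - prj e (f y) := by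
    funext y; rw [hp]
  rw [this]
  exact ho

open Classical in
/-- The chosen system of `n` vectors on the interval `B` at the level `a`; only the values on `B`
matter. -/
def sys (n : ℕ) (a : ℝ) (B : Finset ℤ) (f : ℤ → V) : Fin n → V :=
  if h : ∃ e : Fin n → V, Ons e ∧
    (∀ i, e i ∈ Submodule.span ℝ ((B : Set ℤ).indicator f '' (B : Set ℤ))) ∧
    opn B (fun y => (B : Set ℤ).indicator f y - prj e ((B : Set ℤ).indicator f y)) ≤ 2 * a
  then h.choose else fun _ => 0

theorem ons_sys (n : ℕ) (a : ℝ) (B : Finset ℤ) (f : ℤ → V) : Ons (sys n a B f) := by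
  unfold sys
  split_ifs with h
  · exact h.choose_spec.1
  · exact Ons.zero

theorem sys_congr {n : ℕ} {a : ℝ} {B : Finset ℤ} {f g : ℤ → V} (h : ∀ y ∈ B, f y = g y) :
    sys n a B f = sys n a B g := by
  have : (B : Set ℤ).indicator f = (B : Set ℤ).indicator g := by
    funext y
    by_cases hy : y ∈ (B : Set ℤ)
    · rw [Set.indicator_of_mem hy, Set.indicator_of_mem hy]; exact h y (by exact_mod_cast hy)
    · rw [Set.indicator_of_notMem hy, Set.indicator_of_notMem hy]
  unfold sys
  rw [this]

theorem ind_image (B : Finset ℤ) (f : ℤ → V) :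
    (B : Set ℤ).indicator f '' (B : Set ℤ) = f '' (B : Set ℤ) :=
  Set.image_congr fun _ hy => Set.indicator_of_mem hy f

/-- The vectors are in the span of the values. -/
theorem sys_mem (n : ℕ) (a : ℝ) (B : Finset ℤ) (f : ℤ → V) (i : Fin n) :
    sys n a B f i ∈ Submodule.span ℝ (f '' (B : Set ℤ)) := by
  unfold sys
  split_ifs with h
  · exact (le_of_eq (congrArg (Submodule.span ℝ) (ind_image B f))) (h.choose_spec.2.1 i)
  · exact Submodule.zero_mem _

/-- A vector orthogonal to all the values is orthogonal to the system. -/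
theorem inner_sys {n : ℕ} {a : ℝ} {B : Finset ℤ} {f : ℤ → V} {v : V}
    (h : ∀ y ∈ B, (inner ℝ (f y) v : ℝ) = 0) (i : Fin n) :
    (inner ℝ (sys n a B f i) v : ℝ) = 0 := by
  have h1 := sys_mem n a B f i
  refine Submodule.span_induction (p := fun z _ => (inner ℝ z v : ℝ) = 0) ?_ ?_ ?_ ?_ h1
  · rintro _ ⟨y, hy, rfl⟩
    exact h y (by exact_mod_cast hy)
  · exact inner_zero_left v
  · intro x y _ _ hx hy
    rw [inner_add_left, hx, hy, add_zero]
  · intro c x _ hx
    rw [real_inner_smul_left, hx, mul_zero]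

theorem opn_sys {n : ℕ} {a : ℝ} (ha : 0 < a) {B : Finset ℤ} {f : ℤ → V}
    (hn : nrg B f ≤ a * n) :
    opn B (fun y => f y - prj (sys n a B f) (f y)) ≤ 2 * a := by
  classical
  have hi : ∀ y ∈ B, (B : Set ℤ).indicator f y = f y := fun y hy =>
    Set.indicator_of_mem (by exact_mod_cast hy) f
  have hn' : nrg B ((B : Set ℤ).indicator f) ≤ a * n := by
    refine (le_of_eq ?_).trans hn
    unfold nrg
    exact sum_congr rfl fun y hy => by rw [hi y hy]
  have h : ∃ e : Fin n → V, Ons e ∧
      (∀ i, e i ∈ Submodule.span ℝ ((B : Set ℤ).indicator f '' (B : Set ℤ))) ∧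
      opn B (fun y => (B : Set ℤ).indicator f y - prj e ((B : Set ℤ).indicator f y)) ≤ 2 * a :=
    exists_ons_fin ha hn'
  have h2 := h.choose_spec.2.2
  have h3 : sys n a B f = h.choose := by
    unfold sys; rw [dif_pos h]
  rw [h3]
  refine (le_of_eq ?_).trans h2
  exact opn_congr fun y hy => by rw [hi y hy]

end

end Vale.Agent.P141.H70
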