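import Vale.Agent.P141.H70.Prj

/-!
# P141, CE: the lazy split of a vector valued edge function

`u x y` is a vector.  From the top scale down: on the square `(k; m1, m2)` the part of the current
function above the threshold `w` (an orthogonal projection of the label space which depends on
`x` and on the interval `m2` of `y`) is removed iff its mass on the square is at least `c 4 ^ k`.

* the removed parts are pointwise orthogonal to what remains, and the events have total area
  `≤ mass / c`;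
* on every square the current function is `hi + lo`, with `mass hi ≤ c`, potential of `lo x` at most
  `2 w` for EVERY `x`.
-/

namespace Vale.Agent.P141.H70

open Finset
open Vale.Agent.P141.PL (iv ix mem_iv self_mem_iv card_iv)
open Vale.Agent.P141.H971 (qf nrg opn qf_nonneg nrg_nonneg qf_smul opn_le qf_le_opn opn_nonneg
  opn_congr le_opn mass mass_nonneg sqs mass_split sum_sq_split iv_succ disj_halves opn_union_le)

noncomputable section

set_option linter.unusedSectionVars false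

variable {V : Type*} [NormedAddCommGroup V] [InnerProductSpace ℝ V]

/-- The system of directions of a function at the scale `k` on the interval `m`. -/
def es (n : ℕ) (w : ℝ) (k : ℕ) (m : ℤ) (g : ℤ → V) : Fin n → V := sys n (w * 2 ^ k) (iv k m) g

theorem ons_es (n : ℕ) (w : ℝ) (k : ℕ) (m : ℤ) (g : ℤ → V) : Ons (es n w k m g) := ons_sys _ _ _ _

/-- The part above the threshold at the scale `k`. -/
def hp (n : ℕ) (w : ℝ) (k : ℕ) (g : ℤ → ℤ → V) (x y : ℤ) : V :=
  prj (es n w k (ix k y) (g x)) (g x y)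

open Classical in
/-- The treatment of the scale `k`: the part above the threshold is removed from the squares on
which its mass is at least `c 4 ^ k`. -/
def trl (n : ℕ) (w c : ℝ) (k : ℕ) (g : ℤ → ℤ → V) (x y : ℤ) : V :=
  if c * 4 ^ k ≤ mass (iv k (ix k x)) (iv k (ix k y)) (hp n w k g) then g x y - hp n w k g x y
  else g x y

/-- The process, indexed by the number of steps. -/
def PZ (n : ℕ) (w c : ℝ) (N : ℕ) (u : ℤ → ℤ → V) : ℕ → ℤ → ℤ → V
  | 0 => u
  | j + 1 => trl n w c (N - j) (PZ n w c N u j)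

/-- The process: `lz (N + 1) = u`. -/
def lz (n : ℕ) (w c : ℝ) (N : ℕ) (u : ℤ → ℤ → V) (k : ℕ) : ℤ → ℤ → V := PZ n w c N u (N + 1 - k)

section

variable (n : ℕ) (w c : ℝ) (N : ℕ) (u : ℤ → ℤ → V)

/-- The square `(k; m1, m2)` is an event. -/
def Evt (k : ℕ) (m1 m2 : ℤ) : Prop :=
  k ≤ N ∧ c * 4 ^ k ≤ mass (iv k m1) (iv k m2) (hp n w k (lz n w c N u (k + 1)))

open Classical in
/-- The directions removed on the square `(k; m1, m2)`: zero off the events. -/
def dv (k : ℕ) (m1 m2 x : ℤ) : Fin n → V :=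
  if Evt n w c N u k m1 m2 then es n w k m2 (lz n w c N u (k + 1) x) else fun _ => 0

theorem ons_dv (k : ℕ) (m1 m2 x : ℤ) : Ons (dv n w c N u k m1 m2 x) := by
  unfold dv
  split_ifs
  · exact ons_es _ _ _ _ _
  · exact Ons.zero

theorem dv_of_not {k : ℕ} {m1 m2 : ℤ} (h : ¬ Evt n w c N u k m1 m2) (x : ℤ) (i : Fin n) :
    dv n w c N u k m1 m2 x i = 0 := by
  unfold dv; rw [if_neg h]

theorem prj_zero {ι : Type*} [Fintype ι] (v : V) : prj (fun _ : ι => (0 : V)) v = 0 := by
  unfold prj; simp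

/-- The removed part. -/
def rv (k : ℕ) (x y : ℤ) : V :=
  prj (dv n w c N u k (ix k x) (ix k y) x) (lz n w c N u (k + 1) x y)

theorem lz_top {k : ℕ} (hk : N + 1 ≤ k) : lz n w c N u k = u := by
  unfold lz
  rw [show N + 1 - k = 0 by omega]; rfl

theorem lz_step {k : ℕ} (hk : k ≤ N) : lz n w c N u k = trl n w c k (lz n w c N u (k + 1)) := by
  unfold lz
  rw [show N + 1 - k = (N - k) + 1 by omega, show N + 1 - (k + 1) = N - k by omega]
  show trl n w c (N - (N - k)) _ = _
  rw [show N - (N - k) = k by omega]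

/-- **The step**: on every square a projection of the label space is removed, zero off the
events. -/
theorem lz_eq (k : ℕ) (x y : ℤ) :
    lz n w c N u k x y = lz n w c N u (k + 1) x y - rv n w c N u k x y := by
  classical
  rcases Nat.lt_or_ge N k with h | h
  · rw [lz_top n w c N u (by omega), lz_top n w c N u (by omega)]
    have : ¬ Evt n w c N u k (ix k x) (ix k y) := fun h' => absurd h'.1 (by omega)
    unfold rv
    have h0 : dv n w c N u k (ix k x) (ix k y) x = fun _ => 0 := funext fun i =>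
      dv_of_not n w c N u this x i
    rw [h0, prj_zero, sub_zero]
  · rw [lz_step n w c N u h]
    unfold trl rv dv Evt
    by_cases hc : c * 4 ^ k ≤ mass (iv k (ix k x)) (iv k (ix k y))
        (hp n w k (lz n w c N u (k + 1)))
    · rw [if_pos hc, if_pos ⟨h, hc⟩]; rfl
    · rw [if_neg hc, if_neg fun h' => hc h'.2, prj_zero, sub_zero]

theorem lz_succ (k : ℕ) (x y : ℤ) :
    lz n w c N u (k + 1) x y = lz n w c N u k x y + rv n w c N u k x y := by
  rw [lz_eq n w c N u k x y, sub_add_cancel]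

/-- The removed part is orthogonal to the remaining part. -/
theorem inner_rv_lz (k : ℕ) (x y : ℤ) :
    (inner ℝ (rv n w c N u k x y) (lz n w c N u k x y) : ℝ) = 0 := by
  rw [lz_eq n w c N u k x y]
  exact (ons_dv n w c N u k (ix k x) (ix k y) x).inner_prj_sub _ _

/-- **Pythagoras**, pointwise. -/
theorem pyth_lz (k : ℕ) (x y : ℤ) :
    ‖lz n w c N u (k + 1) x y‖ ^ 2 = ‖lz n w c N u k x y‖ ^ 2 + ‖rv n w c N u k x y‖ ^ 2 := by
  rw [(ons_dv n w c N u k (ix k x) (ix k y) x).pyth (lz n w c N u (k + 1) x y),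
    lz_eq n w c N u k x y, add_comm]
  rfl

theorem pyth_sum {k l : ℕ} (hkl : k ≤ l) (x y : ℤ) :
    ‖lz n w c N u l x y‖ ^ 2 =
      ‖lz n w c N u k x y‖ ^ 2 + ∑ j ∈ Ico k l, ‖rv n w c N u j x y‖ ^ 2 := by
  induction l, hkl using Nat.le_induction with
  | base => rw [Ico_self, sum_empty, add_zero]
  | succ l hl ih => rw [pyth_lz, ih, sum_Ico_succ_top hl, add_assoc]

/-- The sum of all the removed parts. -/
theorem lz_eq_sum {k l : ℕ} (hkl : k ≤ l) (x y : ℤ) :
    lz n w c N u l x y = lz n w c N u k x y + ∑ j ∈ Ico k l, rv n w c N u j x y := by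
  induction l, hkl using Nat.le_induction with
  | base => rw [Ico_self, sum_empty, add_zero]
  | succ l hl ih => rw [lz_succ, ih, sum_Ico_succ_top hl, add_assoc]

theorem norm_lz_mono {k l : ℕ} (hkl : k ≤ l) (x y : ℤ) :
    ‖lz n w c N u k x y‖ ≤ ‖lz n w c N u l x y‖ := by
  have h := pyth_sum n w c N u hkl x y
  have h2 : 0 ≤ ∑ j ∈ Ico k l, ‖rv n w c N u j x y‖ ^ 2 := sum_nonneg fun _ _ => sq_nonneg _
  exact (abs_le_of_sq_le_sq' (by linarith) (norm_nonneg _)).2

theorem norm_lz_le (k : ℕ) (x y : ℤ) : ‖lz n w c N u k x y‖ ≤ ‖u x y‖ := by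
  rcases Nat.lt_or_ge N k with h | h
  · rw [lz_top n w c N u (by omega)]
  · have := norm_lz_mono n w c N u (show k ≤ N + 1 by omega) x y
    rwa [lz_top n w c N u le_rfl] at this

theorem norm_rv_le (k : ℕ) (x y : ℤ) : ‖rv n w c N u k x y‖ ≤ ‖u x y‖ :=
  ((ons_dv n w c N u k (ix k x) (ix k y) x).norm_prj_le _).trans (norm_lz_le n w c N u (k + 1) x y)

/-- All the removed parts at a point. -/
theorem sum_rv_le (k : ℕ) (x y : ℤ) :
    ∑ j ∈ Ico k (N + 1), ‖rv n w c N u j x y‖ ^ 2 ≤ ‖u x y‖ ^ 2 := by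
  rcases Nat.lt_or_ge (N + 1) k with h | h
  · rw [Ico_eq_empty (by omega), sum_empty]; exact sq_nonneg _
  · have h1 := pyth_sum n w c N u h x y
    rw [lz_top n w c N u le_rfl] at h1
    have h2 := sq_nonneg ‖lz n w c N u k x y‖
    linarith

/-! ### mass balance, packing -/

theorem mass_step (J0 J1 : Finset ℤ) (k : ℕ) :
    mass J0 J1 (lz n w c N u (k + 1)) =
      mass J0 J1 (lz n w c N u k) + mass J0 J1 (rv n w c N u k) := by
  unfold mass
  rw [← sum_add_distrib]
  refine sum_congr rfl fun x _ => ?_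
  rw [← sum_add_distrib]
  exact sum_congr rfl fun y _ => pyth_lz n w c N u k x y

theorem mass_lz_anti (J0 J1 : Finset ℤ) {k l : ℕ} (hkl : k ≤ l) :
    mass J0 J1 (lz n w c N u k) ≤ mass J0 J1 (lz n w c N u l) :=
  sum_le_sum fun x _ => sum_le_sum fun y _ =>
    pow_le_pow_left₀ (norm_nonneg _) (norm_lz_mono n w c N u hkl x y) 2

/-- **Mass balance** on the square `(L; R, S)`. -/
theorem mass_balance {L : ℕ} (R S : ℤ) {k l : ℕ} (hkl : k ≤ l) (hl : l ≤ L + 1) :
    mass (iv L R) (iv L S) (lz n w c N u k) +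
      ∑ j ∈ Ico k l, ∑ m ∈ sqs L R S j, mass (iv j m.1) (iv j m.2) (rv n w c N u j) =
      mass (iv L R) (iv L S) (lz n w c N u l) := by
  induction l, hkl using Nat.le_induction with
  | base => rw [Ico_self, sum_empty, add_zero]
  | succ l hkl' ih =>
    rw [sum_Ico_succ_top hkl', mass_step, ← ih (by omega),
      mass_split (show l ≤ L by omega) R S (rv n w c N u l), add_assoc]

/-- An event has removed mass at least `c`. -/
theorem le_mass_rv {k : ℕ} {m1 m2 : ℤ} (h : Evt n w c N u k m1 m2) :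
    c * 4 ^ k ≤ mass (iv k m1) (iv k m2) (rv n w c N u k) := by
  refine h.2.trans (le_of_eq ?_)
  unfold mass
  refine sum_congr rfl fun x hx => sum_congr rfl fun y hy => ?_
  rw [mem_iv] at hx hy
  unfold rv dv hp
  rw [hx, hy, if_pos h]

theorem rv_of_not {k : ℕ} {x y : ℤ} (h : ¬ Evt n w c N u k (ix k x) (ix k y)) :
    rv n w c N u k x y = 0 := by
  unfold rv
  have h0 : dv n w c N u k (ix k x) (ix k y) x = fun _ => 0 := funext fun i =>
    dv_of_not n w c N u h x i
  rw [h0, prj_zero]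

open Classical in
/-- **Packing of the events** in the square `(L; R, S)`. -/
theorem packing {L : ℕ} (R S : ℤ) {k l : ℕ} (hkl : k ≤ l) (hl : l ≤ L + 1) :
    c * ∑ j ∈ Ico k l, ∑ _q ∈ (sqs L R S j).filter (fun q => Evt n w c N u j q.1 q.2),
      (4 : ℝ) ^ j ≤
      mass (iv L R) (iv L S) (lz n w c N u l) - mass (iv L R) (iv L S) (lz n w c N u k) := by
  have h := mass_balance n w c N u R S hkl hl
  have h2 : c * ∑ j ∈ Ico k l, ∑ _q ∈ (sqs L R S j).filter (fun q => Evt n w c N u j q.1 q.2),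
      (4 : ℝ) ^ j ≤
      ∑ j ∈ Ico k l, ∑ m ∈ sqs L R S j, mass (iv j m.1) (iv j m.2) (rv n w c N u j) := by
    rw [mul_sum]
    refine sum_le_sum fun j _ => ?_
    rw [mul_sum]
    refine (sum_le_sum fun m hm => ?_).trans
      (sum_le_sum_of_subset_of_nonneg (filter_subset _ _) fun m _ _ => mass_nonneg _ _ _)
    exact le_mass_rv n w c N u (mem_filter.mp hm).2
  linarith

open Classical in
theorem packing_root {L : ℕ} (R S : ℤ) (k : ℕ) :
    c * ∑ j ∈ Ico k (L + 1), ∑ _q ∈ (sqs L R S j).filter (fun q => Evt n w c N u j q.1 q.2),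
      (4 : ℝ) ^ j ≤ mass (iv L R) (iv L S) u := by
  have h0 : mass (iv L R) (iv L S) (lz n w c N u (L + 1)) ≤ mass (iv L R) (iv L S) u := by
    refine sum_le_sum fun x _ => sum_le_sum fun y _ =>
      pow_le_pow_left₀ (norm_nonneg _) (norm_lz_le n w c N u _ x y) 2
  rcases Nat.lt_or_ge (L + 1) k with h | h
  · rw [Ico_eq_empty (by omega), sum_empty, mul_zero]
    exact mass_nonneg _ _ _
  · have h1 := packing n w c N u R S h le_rfl
    have h2 := mass_nonneg (iv L R) (iv L S) (lz n w c N u k)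
    linarith

/-! ### the decomposition on every square -/

open Classical in
/-- The part above the threshold which is left in: zero after an event. -/
def hi (k : ℕ) (x y : ℤ) : V :=
  if Evt n w c N u k (ix k x) (ix k y) then 0 else hp n w k (lz n w c N u (k + 1)) x y

/-- The part below the threshold. -/
def lo (k : ℕ) (x y : ℤ) : V :=
  lz n w c N u (k + 1) x y - hp n w k (lz n w c N u (k + 1)) x y

/-- **The decomposition.** -/
theorem lz_hi_lo {k : ℕ} (x y : ℤ) :
    lz n w c N u k x y = hi n w c N u k x y + lo n w c N u k x y := by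
  classical
  rw [lz_eq]
  unfold hi lo
  by_cases h : Evt n w c N u k (ix k x) (ix k y)
  · rw [if_pos h, zero_add]
    congr 1
    unfold rv dv
    rw [if_pos h]; rfl
  · rw [if_neg h, rv_of_not n w c N u h, sub_zero]
    abel

theorem inner_hi_lo (k : ℕ) (x y : ℤ) :
    (inner ℝ (hi n w c N u k x y) (lo n w c N u k x y) : ℝ) = 0 := by
  classical
  unfold hi lo
  split_ifs
  · exact inner_zero_left _
  · exact (ons_es n w k (ix k y) (lz n w c N u (k + 1) x)).inner_prj_sub _ _

theorem pyth_hi_lo {k : ℕ} (x y : ℤ) :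
    ‖lz n w c N u k x y‖ ^ 2 = ‖hi n w c N u k x y‖ ^ 2 + ‖lo n w c N u k x y‖ ^ 2 := by
  have h1 := inner_hi_lo n w c N u k x y
  have h2 : (inner ℝ (lo n w c N u k x y) (hi n w c N u k x y) : ℝ) = 0 := by
    rw [real_inner_comm]; exact h1
  rw [lz_hi_lo n w c N u x y, ← real_inner_self_eq_norm_sq, inner_add_left, inner_add_right,
    inner_add_right, h1, h2, real_inner_self_eq_norm_sq, real_inner_self_eq_norm_sq]
  ring

theorem norm_hi_le {k : ℕ} (x y : ℤ) :
    ‖hi n w c N u k x y‖ ≤ ‖lz n w c N u k x y‖ := by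
  have h := pyth_hi_lo n w c N u (k := k) x y
  have h2 := sq_nonneg ‖lo n w c N u k x y‖
  exact (abs_le_of_sq_le_sq' (by linarith) (norm_nonneg _)).2

theorem norm_lo_le {k : ℕ} (x y : ℤ) :
    ‖lo n w c N u k x y‖ ≤ ‖lz n w c N u k x y‖ := by
  have h := pyth_hi_lo n w c N u (k := k) x y
  have h2 := sq_nonneg ‖hi n w c N u k x y‖
  exact (abs_le_of_sq_le_sq' (by linarith) (norm_nonneg _)).2

/-- **Small mass** of the part above the threshold, at the scale `k`. -/
theorem mass_hi {k : ℕ} (hk : k ≤ N) (hc : 0 ≤ c) (m1 m2 : ℤ) :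
    mass (iv k m1) (iv k m2) (hi n w c N u k) ≤ c * 4 ^ k := by
  classical
  by_cases h : Evt n w c N u k m1 m2
  · have h0 : mass (iv k m1) (iv k m2) (hi n w c N u k) = 0 := by
      unfold mass
      refine sum_eq_zero fun x hx => sum_eq_zero fun y hy => ?_
      rw [mem_iv] at hx hy
      unfold hi
      rw [hx, hy, if_pos h, norm_zero]; ring
    rw [h0]; positivity
  · have h0 : mass (iv k m1) (iv k m2) (hi n w c N u k) =
        mass (iv k m1) (iv k m2) (hp n w k (lz n w c N u (k + 1))) := by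
      unfold mass
      refine sum_congr rfl fun x hx => sum_congr rfl fun y hy => ?_
      rw [mem_iv] at hx hy
      unfold hi
      rw [hx, hy, if_neg h]
    rw [h0]
    by_contra hcon
    exact h ⟨hk, (not_le.mp hcon).le⟩

/-- **Small mass**, on all the coarser squares. -/
theorem mass_hi_coarse {k l : ℕ} (hk : k ≤ N) (hc : 0 ≤ c) (hkl : k ≤ l) (m1 m2 : ℤ) :
    mass (iv l m1) (iv l m2) (hi n w c N u k) ≤ c * 4 ^ l := by
  rw [mass_split hkl m1 m2 (hi n w c N u k)]
  refine (sum_le_sum fun m _ => mass_hi n w c N u hk hc m.1 m.2).trans (le_of_eq ?_)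
  rw [sum_const, nsmul_eq_mul]
  unfold sqs
  rw [card_product, card_iv, card_iv]
  push_cast
  have h4 : (4 : ℝ) ^ l = 2 ^ (l - k) * 2 ^ (l - k) * 4 ^ k := by
    rw [← mul_pow, show (2 : ℝ) * 2 = 4 by norm_num, ← pow_add]
    congr 1; omega
  rw [h4]; ring

/-- **Small potential** of the part below the threshold, for EVERY `x`, at the scale `k`. -/
theorem opn_lo {k : ℕ} (hw : 0 < w) (m x : ℤ)
    (hn : nrg (iv k m) (lz n w c N u (k + 1) x) ≤ w * 2 ^ k * n) :
    opn (iv k m) (lo n w c N u k x) ≤ 2 * (w * 2 ^ k) := by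
  have h := opn_sys (n := n) (a := w * 2 ^ k) (by positivity) (B := iv k m)
    (f := lz n w c N u (k + 1) x) hn
  refine (le_of_eq ?_).trans h
  refine opn_congr fun y hy => ?_
  rw [mem_iv] at hy
  unfold lo hp es
  rw [hy]

theorem nrg_le_of {k : ℕ} (m x : ℤ) {M : ℝ} (hu : ∀ y, ‖u x y‖ ^ 2 ≤ M) (l : ℕ) :
    nrg (iv k m) (lz n w c N u l x) ≤ 2 ^ k * M := by
  unfold nrg
  refine (sum_le_sum fun y _ => ((pow_le_pow_left₀ (norm_nonneg _)
    (norm_lz_le n w c N u l x y) 2).trans (hu y))).trans (le_of_eq ?_)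
  rw [sum_const, nsmul_eq_mul, card_iv]
  push_cast
  ring

/-- **Small potential** for bounded `u`. -/
theorem opn_lo_of {k : ℕ} (hw : 0 < w) (m x : ℤ) {M : ℝ} (hu : ∀ y, ‖u x y‖ ^ 2 ≤ M)
    (hM : M ≤ w * n) : opn (iv k m) (lo n w c N u k x) ≤ 2 * w * 2 ^ k := by
  have h1 := nrg_le_of n w c N u (k := k) m x hu (k + 1)
  have h2 := opn_lo n w c N u hw m x (h1.trans (by
    calc (2 : ℝ) ^ k * M ≤ 2 ^ k * (w * n) := mul_le_mul_of_nonneg_left hM (by positivity)
      _ = w * 2 ^ k * n := by ring))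
  linarith

/-- **Small potential**, on all the coarser intervals. -/
theorem opn_lo_coarse {k l : ℕ} (hw : 0 < w) (hkl : k ≤ l) (m x : ℤ) {M : ℝ}
    (hu : ∀ y, ‖u x y‖ ^ 2 ≤ M) (hM : M ≤ w * n) :
    opn (iv l m) (lo n w c N u k x) ≤ 2 * w * 2 ^ l := by
  induction l, hkl using Nat.le_induction generalizing m with
  | base => exact opn_lo_of n w c N u hw m x hu hM
  | succ l _ ih =>
    rw [iv_succ l m]
    refine (opn_union_le (disj_halves l m) _).trans ?_
    have a1 := ih (2 * m)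
    have a2 := ih (2 * m + 1)
    rw [pow_succ]
    linarith

/-! ### smaller squares: the old value on the children -/

theorem iv_sub_iv {k l : ℕ} (hkl : k ≤ l) {m p : ℤ} (h : ix (l - k) m = p) :
    iv k m ⊆ iv l p := by
  intro x hx
  rw [mem_iv] at hx ⊢
  rw [← h, ← hx, Vale.Agent.P141.PL.ix_ix, show k + (l - k) = l by omega]

theorem mass_mono {J0 J1 K0 K1 : Finset ℤ} (h0 : J0 ⊆ K0) (h1 : J1 ⊆ K1) (g : ℤ → ℤ → V) :
    mass J0 J1 g ≤ mass K0 K1 g := by
  unfold mass
  refine (sum_le_sum fun x _ => sum_le_sum_of_subset_of_nonneg h1 fun _ _ _ => sq_nonneg _).trans ?_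
  exact sum_le_sum_of_subset_of_nonneg h0 fun _ _ _ => sum_nonneg fun _ _ => sq_nonneg _

theorem opn_mono {B B' : Finset ℤ} (h : B ⊆ B') (f : ℤ → V) : opn B f ≤ opn B' f := by
  refine opn_le fun v hv => le_trans ?_ (le_opn B' f hv)
  unfold qf
  exact sum_le_sum_of_subset_of_nonneg h fun _ _ _ => sq_nonneg _

/-- The value of the scale `l` on a smaller square: the part above the threshold. -/
theorem mass_hi_fine {k l : ℕ} (hl : l ≤ N) (hc : 0 ≤ c) (hkl : k ≤ l) (m1 m2 : ℤ) :
    mass (iv k m1) (iv k m2) (hi n w c N u l) ≤ c * 4 ^ l :=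
  (mass_mono (iv_sub_iv hkl (m := m1) rfl) (iv_sub_iv hkl (m := m2) rfl) _).trans
    (mass_hi n w c N u hl hc _ _)

/-- The value of the scale `l` on a smaller interval: the part below the threshold. -/
theorem opn_lo_fine {k l : ℕ} (hw : 0 < w) (hkl : k ≤ l) (m x : ℤ) {M : ℝ}
    (hu : ∀ y, ‖u x y‖ ^ 2 ≤ M) (hM : M ≤ w * n) :
    opn (iv k m) (lo n w c N u l x) ≤ 2 * w * 2 ^ l :=
  (opn_mono (iv_sub_iv hkl (m := m) rfl) _).trans (opn_lo_of n w c N u hw _ x hu hM)

/-- The old value `lz (k + 1)` on a square of scale `k`. -/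
theorem mass_hi_old {k : ℕ} (hk : k + 1 ≤ N) (hc : 0 ≤ c) (m1 m2 : ℤ) :
    mass (iv k m1) (iv k m2) (hi n w c N u (k + 1)) ≤ 4 * c * 4 ^ k := by
  refine (mass_hi_fine n w c N u hk hc (Nat.le_succ k) m1 m2).trans (le_of_eq ?_)
  rw [pow_succ]; ring

theorem opn_lo_old {k : ℕ} (hw : 0 < w) (m x : ℤ) {M : ℝ}
    (hu : ∀ y, ‖u x y‖ ^ 2 ≤ M) (hM : M ≤ w * n) :
    opn (iv k m) (lo n w c N u (k + 1) x) ≤ 4 * w * 2 ^ k := by
  refine (opn_lo_fine n w c N u hw (Nat.le_succ k) m x hu hM).trans (le_of_eq ?_)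
  rw [pow_succ]; ring

/-- The quadratic form of the part below the threshold (sums). -/
theorem qf_lo {k : ℕ} (hw : 0 < w) (m x : ℤ) {M : ℝ} (hu : ∀ y, ‖u x y‖ ^ 2 ≤ M)
    (hM : M ≤ w * n) (v : V) :
    ∑ y ∈ iv k m, (inner ℝ (lo n w c N u k x y) v : ℝ) ^ 2 ≤ 2 * w * 2 ^ k * ‖v‖ ^ 2 :=
  (qf_le_opn (iv k m) (lo n w c N u k x) v).trans
    (mul_le_mul_of_nonneg_right (opn_lo_of n w c N u hw m x hu hM) (sq_nonneg _))

/-- The energy of the current function is at most the energy of `u`. -/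
theorem nrg_lz_le (B : Finset ℤ) (k : ℕ) (x : ℤ) :
    nrg B (lz n w c N u k x) ≤ nrg B (u x) :=
  sum_le_sum fun y _ => pow_le_pow_left₀ (norm_nonneg _) (norm_lz_le n w c N u k x y) 2

/-! ### orthogonality of the directions of nested squares -/

/-- A vector orthogonal to the current row is orthogonal to all the later directions. -/
theorem inner_dv_of {k : ℕ} {m1 m2 x : ℤ} {v : V}
    (h : ∀ y ∈ iv k m2, (inner ℝ (lz n w c N u (k + 1) x y) v : ℝ) = 0) (i : Fin n) :
    (inner ℝ (dv n w c N u k m1 m2 x i) v : ℝ) = 0 := by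
  classical
  unfold dv
  split_ifs
  · exact inner_sys h i
  · exact inner_zero_left v

/-- A vector orthogonal to the current row stays orthogonal. -/
theorem inner_lz_of {k l : ℕ} (hkl : k ≤ l) {x y : ℤ} {v : V}
    (h : ∀ y' ∈ iv l (ix l y), (inner ℝ (lz n w c N u l x y') v : ℝ) = 0) :
    ∀ y' ∈ iv l (ix l y), (inner ℝ (lz n w c N u k x y') v : ℝ) = 0 := by
  induction l, hkl using Nat.le_induction generalizing y with
  | base => exact h
  | succ l hl ih =>
    intro y' hy'
    have hsub : ∀ y'' ∈ iv l (ix l y'), y'' ∈ iv (l + 1) (ix (l + 1) y) := by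
      intro y'' h''
      rw [mem_iv] at hy' h'' ⊢
      rw [← Vale.Agent.P141.PL.ix_ix l 1 y'', h'', Vale.Agent.P141.PL.ix_ix l 1 y', hy']
    refine ih (y := y') ?_ y' (self_mem_iv l y')
    intro y'' hy''
    rw [lz_eq n w c N u l x y'', inner_sub_left, h y'' (hsub y'' hy''), zero_sub, neg_eq_zero]
    unfold rv
    rw [prj_inner]
    refine sum_eq_zero fun i _ => ?_
    have h1 : (inner ℝ (dv n w c N u l (ix l x) (ix l y'') x i) v : ℝ) = 0 := by
      refine inner_dv_of n w c N u (fun z hz => h z (hsub z ?_)) i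
      rw [mem_iv] at hz hy'' ⊢
      rw [hz, hy'']
    rw [h1, mul_zero]

/-- After an event the current row is orthogonal to the removed directions. -/
theorem inner_dv_lz (k : ℕ) (m1 m2 : ℤ) {x y : ℤ} (hx : x ∈ iv k m1) (hy : y ∈ iv k m2)
    (i : Fin n) :
    (inner ℝ (lz n w c N u k x y) (dv n w c N u k m1 m2 x i) : ℝ) = 0 := by
  rw [mem_iv] at hx hy
  rw [lz_eq]
  unfold rv
  rw [hx, hy, inner_sub_left, real_inner_comm, real_inner_comm (dv n w c N u k m1 m2 x i),
    (ons_dv n w c N u k m1 m2 x).inner_prj, sub_self]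

/-- **Directions of nested squares are orthogonal.** -/
theorem inner_dv_dv {k l : ℕ} (hkl : k < l) {m1 m2 p1 p2 x : ℤ} (hx : x ∈ iv l p1)
    (hm : ∀ y ∈ iv k m2, y ∈ iv l p2) (i j : Fin n) :
    (inner ℝ (dv n w c N u k m1 m2 x i) (dv n w c N u l p1 p2 x j) : ℝ) = 0 := by
  refine inner_dv_of n w c N u (fun y hy => ?_) i
  have hy2 := hm y hy
  have h1 : ix l y = p2 := mem_iv.mp hy2
  have h2 : ∀ y' ∈ iv l (ix l y), (inner ℝ (lz n w c N u l x y') (dv n w c N u l p1 p2 x j) : ℝ)
      = 0 := by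
    intro y' hy'
    rw [h1] at hy'
    exact inner_dv_lz n w c N u l p1 p2 hx hy' j
  exact inner_lz_of n w c N u (show k + 1 ≤ l by omega) h2 y (self_mem_iv l y)

/-! ### the removed piece against a second vector valued function -/

/-- The removed scalar functions. -/
def rs (k : ℕ) (i : Fin n) (x y : ℤ) : ℝ :=
  inner ℝ (dv n w c N u k (ix k x) (ix k y) x i) (lz n w c N u (k + 1) x y)

theorem inner_rv (k : ℕ) (x y : ℤ) (v : V) :
    (inner ℝ (rv n w c N u k x y) v : ℝ) =
      ∑ i, rs n w c N u k i x y * inner ℝ (dv n w c N u k (ix k x) (ix k y) x i) v :=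
  prj_inner _ _ _

theorem norm_rv_sq (k : ℕ) (x y : ℤ) :
    ‖rv n w c N u k x y‖ ^ 2 = ∑ i, rs n w c N u k i x y ^ 2 :=
  (ons_dv n w c N u k (ix k x) (ix k y) x).norm_prj_sq _

/-- **The identity of the process**: `⟪u, v⟫` is the current product plus the removed products. -/
theorem inner_lz_eq {k l : ℕ} (hkl : k ≤ l) (x y : ℤ) (v : V) :
    (inner ℝ (lz n w c N u l x y) v : ℝ) = inner ℝ (lz n w c N u k x y) v +
      ∑ j ∈ Ico k l, ∑ i, rs n w c N u j i x y *
        inner ℝ (dv n w c N u j (ix j x) (ix j y) x i) v := by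
  rw [lz_eq_sum n w c N u hkl x y, inner_add_left, sum_inner]
  congr 1
  exact sum_congr rfl fun j _ => inner_rv n w c N u j x y v

/-- The energy of a second function along the removed directions: at most the number of directions
times its potential. -/
theorem sum_dv_le (k : ℕ) (m1 m2 x : ℤ) (C : Finset ℤ) (v : ℤ → V) :
    ∑ z ∈ C, ∑ i, (inner ℝ (dv n w c N u k m1 m2 x i) (v z) : ℝ) ^ 2 ≤ n * opn C v := by
  rw [sum_comm]
  have h : ∀ i ∈ (univ : Finset (Fin n)),
      ∑ z ∈ C, (inner ℝ (dv n w c N u k m1 m2 x i) (v z) : ℝ) ^ 2 ≤ opn C v := by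
    intro i _
    have h1 := le_opn C v ((ons_dv n w c N u k m1 m2 x).norm_le i)
    refine (le_of_eq ?_).trans h1
    unfold qf
    exact sum_congr rfl fun z _ => by rw [real_inner_comm]
  refine (sum_le_sum h).trans (le_of_eq ?_)
  rw [sum_const, card_univ, Fintype.card_fin, nsmul_eq_mul]

theorem sum_dv_le_norm (k : ℕ) (m1 m2 x : ℤ) (v : V) :
    ∑ i, (inner ℝ (dv n w c N u k m1 m2 x i) v : ℝ) ^ 2 ≤ ‖v‖ ^ 2 :=
  (ons_dv n w c N u k m1 m2 x).sum_sq_le v

end

end

end Vale.Agent.P141.H70
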