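import Vale.Agent.P141.H70.Prj2

/-!
# P141, CE: the removal process for an arbitrary rule

A rule `rm` says which part of the current function is to be removed from a square; it is removed
iff its mass is at least the threshold `th`.  From the top scale down.

* the removed parts are pointwise orthogonal to what remains, the removed masses add up to at most
  the mass at the start, on every square;
* on every square the current function is `hA + lA`, `lA` the part which the rule leaves, and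
  `mass hA ≤ th`.
-/

namespace Vale.Agent.P141.H70

open Finset
open Vale.Agent.P141.PL (iv ix mem_iv self_mem_iv card_iv)
open Vale.Agent.P141.H971 (mass mass_nonneg sqs mass_split)

noncomputable section

set_option linter.unusedSectionVars false

variable {V : Type*} [NormedAddCommGroup V] [InnerProductSpace ℝ V]

/-- A removal rule: scale, square, current function, point. -/
abbrev Rul (V : Type*) := ℕ → ℤ → ℤ → (ℤ → ℤ → V) → ℤ → ℤ → V

/-- A threshold: scale, square, current function. -/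
abbrev Thr (V : Type*) := ℕ → ℤ → ℤ → (ℤ → ℤ → V) → ℝ

/-- The removed part is orthogonal to the remaining part, on the square. -/
def Orth (rm : Rul V) : Prop := ∀ k m1 m2 g, ∀ x ∈ iv k m1, ∀ y ∈ iv k m2,
  (inner ℝ (rm k m1 m2 g x y) (g x y - rm k m1 m2 g x y) : ℝ) = 0

open Classical in
/-- The treatment of the scale `k`. -/
def trA (rm : Rul V) (th : Thr V) (k : ℕ) (g : ℤ → ℤ → V) (x y : ℤ) : V :=
  if th k (ix k x) (ix k y) g ≤
      mass (iv k (ix k x)) (iv k (ix k y)) (rm k (ix k x) (ix k y) g)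
  then g x y - rm k (ix k x) (ix k y) g x y else g x y

/-- The process, indexed by the number of steps. -/
def PA (rm : Rul V) (th : Thr V) (N : ℕ) (u : ℤ → ℤ → V) : ℕ → ℤ → ℤ → V
  | 0 => u
  | j + 1 => trA rm th (N - j) (PA rm th N u j)

/-- The process: `az (N + 1) = u`. -/
def az (rm : Rul V) (th : Thr V) (N : ℕ) (u : ℤ → ℤ → V) (k : ℕ) : ℤ → ℤ → V :=
  PA rm th N u (N + 1 - k)

/-- The square `(k; m1, m2)` is an event. -/
def EvA (rm : Rul V) (th : Thr V) (N : ℕ) (u : ℤ → ℤ → V) (k : ℕ) (m1 m2 : ℤ) : Prop :=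
  k ≤ N ∧ th k m1 m2 (az rm th N u (k + 1)) ≤
    mass (iv k m1) (iv k m2) (rm k m1 m2 (az rm th N u (k + 1)))

open Classical in
/-- The removed part. -/
def ra (rm : Rul V) (th : Thr V) (N : ℕ) (u : ℤ → ℤ → V) (k : ℕ) (x y : ℤ) : V :=
  if EvA rm th N u k (ix k x) (ix k y) then rm k (ix k x) (ix k y) (az rm th N u (k + 1)) x y
  else 0

section

variable (rm : Rul V) (th : Thr V) (N : ℕ) (u : ℤ → ℤ → V)

theorem az_top {k : ℕ} (hk : N + 1 ≤ k) : az rm th N u k = u := by
  unfold az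
  rw [show N + 1 - k = 0 by omega]; rfl

theorem az_step {k : ℕ} (hk : k ≤ N) :
    az rm th N u k = trA rm th k (az rm th N u (k + 1)) := by
  unfold az
  rw [show N + 1 - k = (N - k) + 1 by omega, show N + 1 - (k + 1) = N - k by omega]
  show trA rm th (N - (N - k)) _ = _
  rw [show N - (N - k) = k by omega]

theorem ra_of {k : ℕ} {x y : ℤ} (h : EvA rm th N u k (ix k x) (ix k y)) :
    ra rm th N u k x y = rm k (ix k x) (ix k y) (az rm th N u (k + 1)) x y := by
  unfold ra; rw [if_pos h]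

theorem ra_of_not {k : ℕ} {x y : ℤ} (h : ¬ EvA rm th N u k (ix k x) (ix k y)) :
    ra rm th N u k x y = 0 := by
  unfold ra; rw [if_neg h]

theorem az_eq (k : ℕ) (x y : ℤ) :
    az rm th N u k x y = az rm th N u (k + 1) x y - ra rm th N u k x y := by
  classical
  rcases Nat.lt_or_ge N k with h | h
  · rw [az_top rm th N u (by omega), az_top rm th N u (by omega),
      ra_of_not rm th N u fun h' => absurd h'.1 (by omega), sub_zero]
  · rw [az_step rm th N u h]
    unfold trA ra EvA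
    by_cases hc : th k (ix k x) (ix k y) (az rm th N u (k + 1)) ≤
        mass (iv k (ix k x)) (iv k (ix k y)) (rm k (ix k x) (ix k y) (az rm th N u (k + 1)))
    · rw [if_pos hc, if_pos ⟨h, hc⟩]
    · rw [if_neg hc, if_neg fun h' => hc h'.2, sub_zero]

theorem az_succ (k : ℕ) (x y : ℤ) :
    az rm th N u (k + 1) x y = az rm th N u k x y + ra rm th N u k x y := by
  rw [az_eq rm th N u k x y, sub_add_cancel]

/-- The sum of all the removed parts. -/
theorem az_eq_sum {k l : ℕ} (hkl : k ≤ l) (x y : ℤ) :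
    az rm th N u l x y = az rm th N u k x y + ∑ j ∈ Ico k l, ra rm th N u j x y := by
  induction l, hkl using Nat.le_induction with
  | base => rw [Ico_self, sum_empty, add_zero]
  | succ l hl ih => rw [az_succ, ih, sum_Ico_succ_top hl, add_assoc]

/-- No event: nothing changes. -/
theorem az_of_not {k : ℕ} {x y : ℤ} (h : ¬ EvA rm th N u k (ix k x) (ix k y)) :
    az rm th N u k x y = az rm th N u (k + 1) x y := by
  rw [az_eq, ra_of_not rm th N u h, sub_zero]

/-- The values stay between two scales without events above the point. -/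
theorem az_const {k l : ℕ} (hkl : k ≤ l) {x y : ℤ}
    (h : ∀ j, k ≤ j → j < l → ¬ EvA rm th N u j (ix j x) (ix j y)) :
    az rm th N u k x y = az rm th N u l x y := by
  rw [az_eq_sum rm th N u hkl]
  rw [sum_eq_zero fun j hj => ra_of_not rm th N u (h j (mem_Ico.mp hj).1 (mem_Ico.mp hj).2),
    add_zero]

variable {rm}

theorem inner_ra_az (ho : Orth rm) (k : ℕ) (x y : ℤ) :
    (inner ℝ (ra rm th N u k x y) (az rm th N u k x y) : ℝ) = 0 := by
  by_cases h : EvA rm th N u k (ix k x) (ix k y)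
  · rw [az_eq, ra_of rm th N u h]
    exact ho k _ _ _ x (self_mem_iv k x) y (self_mem_iv k y)
  · rw [ra_of_not rm th N u h]; exact inner_zero_left _

/-- **Pythagoras**, pointwise. -/
theorem pyth_az (ho : Orth rm) (k : ℕ) (x y : ℤ) :
    ‖az rm th N u (k + 1) x y‖ ^ 2 = ‖az rm th N u k x y‖ ^ 2 + ‖ra rm th N u k x y‖ ^ 2 := by
  have h1 := inner_ra_az th N u ho k x y
  have h2 : (inner ℝ (az rm th N u k x y) (ra rm th N u k x y) : ℝ) = 0 := by
    rw [real_inner_comm]; exact h1
  rw [az_succ rm th N u k x y, ← real_inner_self_eq_norm_sq, inner_add_left, inner_add_right,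
    inner_add_right, h1, h2, real_inner_self_eq_norm_sq, real_inner_self_eq_norm_sq]
  ring

theorem pyth_az_sum (ho : Orth rm) {k l : ℕ} (hkl : k ≤ l) (x y : ℤ) :
    ‖az rm th N u l x y‖ ^ 2 =
      ‖az rm th N u k x y‖ ^ 2 + ∑ j ∈ Ico k l, ‖ra rm th N u j x y‖ ^ 2 := by
  induction l, hkl using Nat.le_induction with
  | base => rw [Ico_self, sum_empty, add_zero]
  | succ l hl ih => rw [pyth_az th N u ho, ih, sum_Ico_succ_top hl, add_assoc]

theorem norm_az_mono (ho : Orth rm) {k l : ℕ} (hkl : k ≤ l) (x y : ℤ) :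
    ‖az rm th N u k x y‖ ≤ ‖az rm th N u l x y‖ := by
  have h := pyth_az_sum th N u ho hkl x y
  have h2 : 0 ≤ ∑ j ∈ Ico k l, ‖ra rm th N u j x y‖ ^ 2 := sum_nonneg fun _ _ => sq_nonneg _
  exact (abs_le_of_sq_le_sq' (by linarith) (norm_nonneg _)).2

theorem norm_az_le (ho : Orth rm) (k : ℕ) (x y : ℤ) : ‖az rm th N u k x y‖ ≤ ‖u x y‖ := by
  rcases Nat.lt_or_ge N k with h | h
  · rw [az_top rm th N u (by omega)]
  · have := norm_az_mono th N u ho (show k ≤ N + 1 by omega) x y
    rwa [az_top rm th N u le_rfl] at this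

/-- All the removed parts at a point. -/
theorem sum_ra_le (ho : Orth rm) (k : ℕ) (x y : ℤ) :
    ∑ j ∈ Ico k (N + 1), ‖ra rm th N u j x y‖ ^ 2 ≤ ‖u x y‖ ^ 2 := by
  rcases Nat.lt_or_ge (N + 1) k with h | h
  · rw [Ico_eq_empty (by omega), sum_empty]; exact sq_nonneg _
  · have h1 := pyth_az_sum th N u ho h x y
    rw [az_top rm th N u le_rfl] at h1
    have h2 := sq_nonneg ‖az rm th N u k x y‖
    linarith

theorem norm_ra_le (ho : Orth rm) (k : ℕ) (x y : ℤ) : ‖ra rm th N u k x y‖ ≤ ‖u x y‖ := by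
  have h := pyth_az th N u ho k x y
  have h2 := sq_nonneg ‖az rm th N u k x y‖
  exact ((abs_le_of_sq_le_sq' (by linarith) (norm_nonneg _)).2).trans
    (norm_az_le th N u ho (k + 1) x y)

/-! ### mass balance, packing -/

theorem mass_step_az (ho : Orth rm) (J0 J1 : Finset ℤ) (k : ℕ) :
    mass J0 J1 (az rm th N u (k + 1)) =
      mass J0 J1 (az rm th N u k) + mass J0 J1 (ra rm th N u k) := by
  unfold mass
  rw [← sum_add_distrib]
  refine sum_congr rfl fun x _ => ?_
  rw [← sum_add_distrib]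
  exact sum_congr rfl fun y _ => pyth_az th N u ho k x y

theorem mass_az_anti (ho : Orth rm) (J0 J1 : Finset ℤ) {k l : ℕ} (hkl : k ≤ l) :
    mass J0 J1 (az rm th N u k) ≤ mass J0 J1 (az rm th N u l) :=
  sum_le_sum fun x _ => sum_le_sum fun y _ =>
    pow_le_pow_left₀ (norm_nonneg _) (norm_az_mono th N u ho hkl x y) 2

theorem mass_az_le (ho : Orth rm) (J0 J1 : Finset ℤ) (k : ℕ) :
    mass J0 J1 (az rm th N u k) ≤ mass J0 J1 u :=
  sum_le_sum fun x _ => sum_le_sum fun y _ =>
    pow_le_pow_left₀ (norm_nonneg _) (norm_az_le th N u ho k x y) 2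

/-- **Mass balance** on the square `(L; R, S)`. -/
theorem mass_balance_az (ho : Orth rm) {L : ℕ} (R S : ℤ) {k l : ℕ} (hkl : k ≤ l)
    (hl : l ≤ L + 1) :
    mass (iv L R) (iv L S) (az rm th N u k) +
      ∑ j ∈ Ico k l, ∑ m ∈ sqs L R S j, mass (iv j m.1) (iv j m.2) (ra rm th N u j) =
      mass (iv L R) (iv L S) (az rm th N u l) := by
  induction l, hkl using Nat.le_induction with
  | base => rw [Ico_self, sum_empty, add_zero]
  | succ l hkl' ih =>
    rw [sum_Ico_succ_top hkl', mass_step_az th N u ho, ← ih (by omega),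
      mass_split (show l ≤ L by omega) R S (ra rm th N u l), add_assoc]

theorem mass_ra_eq {k : ℕ} {m1 m2 : ℤ} (h : EvA rm th N u k m1 m2) :
    mass (iv k m1) (iv k m2) (ra rm th N u k) =
      mass (iv k m1) (iv k m2) (rm k m1 m2 (az rm th N u (k + 1))) := by
  unfold mass
  refine sum_congr rfl fun x hx => sum_congr rfl fun y hy => ?_
  rw [mem_iv] at hx hy
  subst hx; subst hy
  rw [ra_of rm th N u h]

/-- An event has removed mass at least the threshold. -/
theorem le_mass_ra {k : ℕ} {m1 m2 : ℤ} (h : EvA rm th N u k m1 m2) :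
    th k m1 m2 (az rm th N u (k + 1)) ≤ mass (iv k m1) (iv k m2) (ra rm th N u k) := by
  rw [mass_ra_eq th N u h]; exact h.2

open Classical in
/-- **Packing**: any quantity `F` which is at most the threshold at the events is summable over the
events in the square `(L; R, S)`. -/
theorem packing_az (ho : Orth rm) {L : ℕ} (R S : ℤ) {k l : ℕ} (hkl : k ≤ l)
    (hl : l ≤ L + 1) {F : ℕ → ℤ × ℤ → ℝ}
    (hF : ∀ j, k ≤ j → j < l → ∀ m ∈ sqs L R S j, EvA rm th N u j m.1 m.2 →
      F j m ≤ mass (iv j m.1) (iv j m.2) (ra rm th N u j)) :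
    ∑ j ∈ Ico k l, ∑ m ∈ (sqs L R S j).filter (fun q => EvA rm th N u j q.1 q.2), F j m ≤
      mass (iv L R) (iv L S) (az rm th N u l) - mass (iv L R) (iv L S) (az rm th N u k) := by
  have h := mass_balance_az th N u ho R S hkl hl
  have h2 : ∑ j ∈ Ico k l, ∑ m ∈ (sqs L R S j).filter (fun q => EvA rm th N u j q.1 q.2), F j m ≤
      ∑ j ∈ Ico k l, ∑ m ∈ sqs L R S j, mass (iv j m.1) (iv j m.2) (ra rm th N u j) := by
    refine sum_le_sum fun j hj => ?_
    refine (sum_le_sum fun m hm => ?_).trans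
      (sum_le_sum_of_subset_of_nonneg (filter_subset _ _) fun m _ _ => mass_nonneg _ _ _)
    exact hF j (mem_Ico.mp hj).1 (mem_Ico.mp hj).2 m (mem_filter.mp hm).1 (mem_filter.mp hm).2
  linarith

open Classical in
/-- **Packing**, absolute threshold. -/
theorem packing_abs (ho : Orth rm) {c : ℝ} {L : ℕ} (R S : ℤ) {k l : ℕ} (hkl : k ≤ l)
    (hl : l ≤ L + 1)
    (hc : ∀ j, k ≤ j → j < l → ∀ m ∈ sqs L R S j, EvA rm th N u j m.1 m.2 →
      c * 4 ^ j ≤ th j m.1 m.2 (az rm th N u (j + 1))) :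
    c * ∑ j ∈ Ico k l, ∑ _m ∈ (sqs L R S j).filter (fun q => EvA rm th N u j q.1 q.2),
      (4 : ℝ) ^ j ≤
      mass (iv L R) (iv L S) (az rm th N u l) - mass (iv L R) (iv L S) (az rm th N u k) := by
  have h := packing_az th N u ho R S hkl hl (F := fun j _ => c * 4 ^ j)
    (fun j h1 h2 m hm he => (hc j h1 h2 m hm he).trans (le_mass_ra th N u he))
  refine (le_of_eq ?_).trans h
  rw [mul_sum]
  exact sum_congr rfl fun j _ => mul_sum _ _ _

open Classical in
/-- **Packing**, relative threshold `m0 (mass + s 4 ^ j)`. -/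
theorem packing_rel (ho : Orth rm) {m0 s : ℝ} {L : ℕ} (R S : ℤ) {k l : ℕ} (hkl : k ≤ l)
    (hl : l ≤ L + 1)
    (hc : ∀ j, k ≤ j → j < l → ∀ m ∈ sqs L R S j, EvA rm th N u j m.1 m.2 →
      m0 * (mass (iv j m.1) (iv j m.2) (az rm th N u (j + 1)) + s * 4 ^ j) ≤
        th j m.1 m.2 (az rm th N u (j + 1))) :
    m0 * ∑ j ∈ Ico k l, ∑ m ∈ (sqs L R S j).filter (fun q => EvA rm th N u j q.1 q.2),
      (mass (iv j m.1) (iv j m.2) (az rm th N u (j + 1)) + s * 4 ^ j) ≤
      mass (iv L R) (iv L S) (az rm th N u l) - mass (iv L R) (iv L S) (az rm th N u k) := by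
  have h := packing_az th N u ho R S hkl hl
    (F := fun j m => m0 * (mass (iv j m.1) (iv j m.2) (az rm th N u (j + 1)) + s * 4 ^ j))
    (fun j h1 h2 m hm he => (hc j h1 h2 m hm he).trans (le_mass_ra th N u he))
  refine (le_of_eq ?_).trans h
  rw [mul_sum]
  exact sum_congr rfl fun j _ => mul_sum _ _ _

variable (rm)

/-! ### the decomposition on every square -/

open Classical in
/-- The part which the rule would remove and which is left in: zero after an event. -/
def hA (k : ℕ) (x y : ℤ) : V :=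
  if EvA rm th N u k (ix k x) (ix k y) then 0
  else rm k (ix k x) (ix k y) (az rm th N u (k + 1)) x y

/-- The part which the rule leaves. -/
def lA (k : ℕ) (x y : ℤ) : V :=
  az rm th N u (k + 1) x y - rm k (ix k x) (ix k y) (az rm th N u (k + 1)) x y

/-- **The decomposition.** -/
theorem az_hA_lA (k : ℕ) (x y : ℤ) :
    az rm th N u k x y = hA rm th N u k x y + lA rm th N u k x y := by
  classical
  unfold hA lA
  by_cases h : EvA rm th N u k (ix k x) (ix k y)
  · rw [if_pos h, zero_add, az_eq, ra_of rm th N u h]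
  · rw [if_neg h, az_of_not rm th N u h]
    abel

theorem lA_eq {k : ℕ} {m1 m2 x y : ℤ} (hx : x ∈ iv k m1) (hy : y ∈ iv k m2) :
    lA rm th N u k x y =
      az rm th N u (k + 1) x y - rm k m1 m2 (az rm th N u (k + 1)) x y := by
  rw [mem_iv] at hx hy
  subst hx; subst hy; rfl

variable {rm}

theorem inner_hA_lA (ho : Orth rm) (k : ℕ) (x y : ℤ) :
    (inner ℝ (hA rm th N u k x y) (lA rm th N u k x y) : ℝ) = 0 := by
  classical
  unfold hA lA
  split_ifs
  · exact inner_zero_left _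
  · exact ho k _ _ _ x (self_mem_iv k x) y (self_mem_iv k y)

theorem pyth_hA_lA (ho : Orth rm) (k : ℕ) (x y : ℤ) :
    ‖az rm th N u k x y‖ ^ 2 = ‖hA rm th N u k x y‖ ^ 2 + ‖lA rm th N u k x y‖ ^ 2 := by
  have h1 := inner_hA_lA th N u ho k x y
  have h2 : (inner ℝ (lA rm th N u k x y) (hA rm th N u k x y) : ℝ) = 0 := by
    rw [real_inner_comm]; exact h1
  rw [az_hA_lA rm th N u k x y, ← real_inner_self_eq_norm_sq, inner_add_left, inner_add_right,
    inner_add_right, h1, h2, real_inner_self_eq_norm_sq, real_inner_self_eq_norm_sq]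
  ring

theorem norm_hA_le (ho : Orth rm) (k : ℕ) (x y : ℤ) :
    ‖hA rm th N u k x y‖ ≤ ‖az rm th N u k x y‖ := by
  have h := pyth_hA_lA th N u ho k x y
  have h2 := sq_nonneg ‖lA rm th N u k x y‖
  exact (abs_le_of_sq_le_sq' (by linarith) (norm_nonneg _)).2

theorem norm_lA_le (ho : Orth rm) (k : ℕ) (x y : ℤ) :
    ‖lA rm th N u k x y‖ ≤ ‖az rm th N u k x y‖ := by
  have h := pyth_hA_lA th N u ho k x y
  have h2 := sq_nonneg ‖hA rm th N u k x y‖
  exact (abs_le_of_sq_le_sq' (by linarith) (norm_nonneg _)).2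

/-- **Small mass** of the part left in. -/
theorem mass_hA {k : ℕ} (hk : k ≤ N) {m1 m2 : ℤ}
    (hc : 0 ≤ th k m1 m2 (az rm th N u (k + 1))) :
    mass (iv k m1) (iv k m2) (hA rm th N u k) ≤ th k m1 m2 (az rm th N u (k + 1)) := by
  classical
  by_cases h : EvA rm th N u k m1 m2
  · have h0 : mass (iv k m1) (iv k m2) (hA rm th N u k) = 0 := by
      unfold mass
      refine sum_eq_zero fun x hx => sum_eq_zero fun y hy => ?_
      rw [mem_iv] at hx hy
      subst hx; subst hy
      unfold hA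
      rw [if_pos h, norm_zero]; ring
    rw [h0]; exact hc
  · have h0 : mass (iv k m1) (iv k m2) (hA rm th N u k) =
        mass (iv k m1) (iv k m2) (rm k m1 m2 (az rm th N u (k + 1))) := by
      unfold mass
      refine sum_congr rfl fun x hx => sum_congr rfl fun y hy => ?_
      rw [mem_iv] at hx hy
      subst hx; subst hy
      unfold hA
      rw [if_neg h]
    rw [h0]
    by_contra hcon
    exact h ⟨hk, (not_le.mp hcon).le⟩

/-! ### linear rules -/

/-- A rule given by symmetric idempotent maps of the label space, one for every `x`. -/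
structure LinRul (rm : Rul V) (P : ℕ → ℤ → ℤ → (ℤ → ℤ → V) → ℤ → V →ₗ[ℝ] V) : Prop where
  eq : ∀ k m1 m2 g, ∀ x ∈ iv k m1, ∀ y ∈ iv k m2, rm k m1 m2 g x y = P k m1 m2 g x (g x y)
  symm : ∀ k m1 m2 g x v w, (inner ℝ (P k m1 m2 g x v) w : ℝ) = inner ℝ v (P k m1 m2 g x w)
  idem : ∀ k m1 m2 g x v, P k m1 m2 g x (P k m1 m2 g x v) = P k m1 m2 g x v

theorem LinRul.orth {P : ℕ → ℤ → ℤ → (ℤ → ℤ → V) → ℤ → V →ₗ[ℝ] V} (h : LinRul rm P) :
    Orth rm := by
  intro k m1 m2 g x hx y hy
  rw [h.eq k m1 m2 g x hx y hy, h.symm, map_sub, h.idem, sub_self, inner_zero_right]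

open Classical in
/-- The map applied at the scale `k`: zero off the events. -/
def PE (rm : Rul V) (th : Thr V) (N : ℕ) (u : ℤ → ℤ → V)
    (P : ℕ → ℤ → ℤ → (ℤ → ℤ → V) → ℤ → V →ₗ[ℝ] V) (k : ℕ) (m1 m2 x : ℤ) : V →ₗ[ℝ] V :=
  if EvA rm th N u k m1 m2 then P k m1 m2 (az rm th N u (k + 1)) x else 0

theorem LinRul.ra_eq {P : ℕ → ℤ → ℤ → (ℤ → ℤ → V) → ℤ → V →ₗ[ℝ] V} (h : LinRul rm P)
    (k : ℕ) (x y : ℤ) :
    ra rm th N u k x y = PE rm th N u P k (ix k x) (ix k y) x (az rm th N u (k + 1) x y) := by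
  classical
  unfold PE
  by_cases he : EvA rm th N u k (ix k x) (ix k y)
  · rw [ra_of rm th N u he, if_pos he]
    exact h.eq k _ _ _ x (self_mem_iv k x) y (self_mem_iv k y)
  · rw [ra_of_not rm th N u he, if_neg he, LinearMap.zero_apply]

/-- **The step of a linear rule**: `az k = (1 - P) az (k + 1)`, `P = 0` off the events. -/
theorem LinRul.az_eq {P : ℕ → ℤ → ℤ → (ℤ → ℤ → V) → ℤ → V →ₗ[ℝ] V} (h : LinRul rm P)
    (k : ℕ) (x y : ℤ) :
    az rm th N u k x y = az rm th N u (k + 1) x y -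
      PE rm th N u P k (ix k x) (ix k y) x (az rm th N u (k + 1) x y) := by
  rw [H70.az_eq, h.ra_eq]

theorem LinRul.pe_symm {P : ℕ → ℤ → ℤ → (ℤ → ℤ → V) → ℤ → V →ₗ[ℝ] V} (h : LinRul rm P)
    (k : ℕ) (m1 m2 x : ℤ) (v w : V) :
    (inner ℝ (PE rm th N u P k m1 m2 x v) w : ℝ) = inner ℝ v (PE rm th N u P k m1 m2 x w) := by
  classical
  unfold PE
  split_ifs
  · exact h.symm _ _ _ _ _ _ _
  · rw [LinearMap.zero_apply, LinearMap.zero_apply, inner_zero_left, inner_zero_right]

theorem LinRul.pe_idem {P : ℕ → ℤ → ℤ → (ℤ → ℤ → V) → ℤ → V →ₗ[ℝ] V} (h : LinRul rm P)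
    (k : ℕ) (m1 m2 x : ℤ) (v : V) :
    PE rm th N u P k m1 m2 x (PE rm th N u P k m1 m2 x v) = PE rm th N u P k m1 m2 x v := by
  classical
  unfold PE
  split_ifs
  · exact h.idem _ _ _ _ _ _
  · rw [LinearMap.zero_apply, LinearMap.zero_apply]

/-- The removed part against a second function sees only its projection. -/
theorem LinRul.inner_ra {P : ℕ → ℤ → ℤ → (ℤ → ℤ → V) → ℤ → V →ₗ[ℝ] V} (h : LinRul rm P)
    (k : ℕ) (x y : ℤ) (v : V) :
    (inner ℝ (ra rm th N u k x y) v : ℝ) =
      inner ℝ (ra rm th N u k x y) (PE rm th N u P k (ix k x) (ix k y) x v) := by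
  rw [h.ra_eq, ← h.pe_symm, h.pe_idem]

theorem LinRul.norm_pe_le {P : ℕ → ℤ → ℤ → (ℤ → ℤ → V) → ℤ → V →ₗ[ℝ] V} (h : LinRul rm P)
    (k : ℕ) (m1 m2 x : ℤ) (v : V) : ‖PE rm th N u P k m1 m2 x v‖ ≤ ‖v‖ := by
  set w := PE rm th N u P k m1 m2 x v with hw
  have h1 : (inner ℝ w w : ℝ) = inner ℝ v w := by
    rw [hw, h.pe_symm, h.pe_idem]
  have h2 : ‖w‖ ^ 2 ≤ ‖v‖ * ‖w‖ := by
    rw [← real_inner_self_eq_norm_sq, h1]
    exact real_inner_le_norm v w
  rcases (norm_nonneg w).eq_or_lt with h0 | h0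
  · rw [← h0]; exact norm_nonneg v
  · exact le_of_mul_le_mul_right (by rw [← sq]; exact h2) h0

/-- **The identity of the process** against a second vector valued function. -/
theorem LinRul.inner_az_eq {P : ℕ → ℤ → ℤ → (ℤ → ℤ → V) → ℤ → V →ₗ[ℝ] V} (h : LinRul rm P)
    {k l : ℕ} (hkl : k ≤ l) (x y : ℤ) (v : V) :
    (inner ℝ (az rm th N u l x y) v : ℝ) = inner ℝ (az rm th N u k x y) v +
      ∑ j ∈ Ico k l, inner ℝ (ra rm th N u j x y)
        (PE rm th N u P j (ix j x) (ix j y) x v) := by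
  rw [az_eq_sum rm th N u hkl x y, inner_add_left, sum_inner]
  congr 1
  exact sum_congr rfl fun j _ => h.inner_ra th N u j x y v

end

/-- The projection onto the span of a system, as a linear map. -/
def prjL {ι : Type*} [Fintype ι] (e : ι → V) : V →ₗ[ℝ] V where
  toFun := prj e
  map_add' u v := by
    unfold prj
    rw [← sum_add_distrib]
    exact sum_congr rfl fun i _ => by rw [inner_add_right, add_smul]
  map_smul' c v := by
    unfold prj
    rw [RingHom.id_apply, smul_sum]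
    exact sum_congr rfl fun i _ => by rw [inner_smul_right, smul_smul]

theorem prjL_apply {ι : Type*} [Fintype ι] (e : ι → V) (v : V) : prjL e v = prj e v := rfl

theorem prjL_symm {ι : Type*} [Fintype ι] (e : ι → V) (v w : V) :
    (inner ℝ (prjL e v) w : ℝ) = inner ℝ v (prjL e w) := prj_symm e v w

theorem Ons.prjL_idem {ι : Type*} [Fintype ι] {e : ι → V} (h : Ons e) (v : V) :
    prjL e (prjL e v) = prjL e v := h.prj_prj v

end

end Vale.Agent.P141.H70
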