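import Vale.Agent.P141.H70.Prj

/-!
# P141, CE: the fibre lemma with the exact rank

For `f : ℤ → V` on an interval `B` there is an orthonormal system in the span of the values with
`a * rank ≤ ∑ ‖P f‖²` such that the remaining part has operator potential at most `2 a`.
-/

namespace Vale.Agent.P141.H70

open Finset
open Vale.Agent.P141.H971 (qf nrg opn qf_nonneg nrg_nonneg qf_smul opn_le qf_le_opn opn_nonneg
  opn_congr le_opn)

noncomputable section

set_option linter.unusedSectionVars false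

variable {V : Type*} [NormedAddCommGroup V] [InnerProductSpace ℝ V]

/-- **One fibre**, exact rank. -/
theorem exists_ons2 {a : ℝ} (ha : 0 < a) (B : Finset ℤ) (f : ℤ → V) :
    ∃ (n : ℕ) (e : Fin n → V), Orthonormal ℝ e ∧ a * n ≤ ∑ y ∈ B, ‖prj e (f y)‖ ^ 2 ∧
      opn B (fun y => f y - prj e (f y)) ≤ 2 * a := by
  classical
  set S : Set ℝ := {s | ∃ (n : ℕ) (e : Fin n → V), Orthonormal ℝ e ∧
    s = ∑ y ∈ B, ‖prj e (f y)‖ ^ 2 - a * n} with hS
  have hmem0 : (0 : ℝ) ∈ S := ⟨0, Fin.elim0, ⟨fun i => i.elim0, fun i => i.elim0⟩, by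
    simp [prj]⟩
  have hne : S.Nonempty := ⟨0, hmem0⟩
  have hub : ∀ (n : ℕ) (e : Fin n → V), Orthonormal ℝ e →
      ∑ y ∈ B, ‖prj e (f y)‖ ^ 2 ≤ nrg B f := fun n e he =>
    sum_le_sum fun y _ => pow_le_pow_left₀ (norm_nonneg _)
      ((Ons.of_orthonormal he).norm_prj_le (f y)) 2
  have hbd : BddAbove S := by
    refine ⟨nrg B f, ?_⟩
    rintro s ⟨n, e, he, rfl⟩
    have h1 := hub n e he
    have h2 : 0 ≤ a * n := mul_nonneg ha.le (Nat.cast_nonneg n)
    linarith
  have hex : ∃ s ∈ S, sSup S - a < s ∧ 0 ≤ s := by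
    have h0 : (0 : ℝ) ≤ sSup S := le_csSup hbd hmem0
    rcases h0.eq_or_lt with h | h
    · exact ⟨0, hmem0, by rw [← h]; linarith, le_rfl⟩
    · have hlt : max (sSup S - a) 0 < sSup S := max_lt (by linarith) h
      obtain ⟨s, hsS, hs⟩ := exists_lt_of_lt_csSup hne hlt
      exact ⟨s, hsS, (le_max_left _ _).trans_lt hs, ((le_max_right _ _).trans_lt hs).le⟩
  obtain ⟨s, hsS, hs, hs0⟩ := hex
  obtain ⟨n, e, he, hse⟩ := hsS
  have ho := Ons.of_orthonormal he
  refine ⟨n, e, he, by linarith, ?_⟩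
  refine opn_le fun v hv => ?_
  rw [ho.qf_sub]
  set v' := v - prj e v with hv'
  have hn : ‖v'‖ ≤ 1 := (ho.norm_sub_le v).trans hv
  rcases eq_or_ne v' 0 with hz | hz
  · rw [hz]
    unfold qf
    simp only [inner_zero_right]
    have : ∑ y ∈ B, (0 : ℝ) ^ 2 = 0 := by simp
    rw [this]; linarith
  · have hpos : 0 < ‖v'‖ := norm_pos_iff.mpr hz
    set w := ‖v'‖⁻¹ • v' with hw
    have hw1 : ‖w‖ = 1 := by
      rw [hw, norm_smul, norm_inv, norm_norm, inv_mul_cancel₀ hpos.ne']
    have hwe : ∀ i, (inner ℝ (e i) w : ℝ) = 0 := by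
      intro i
      rw [hw, inner_smul_right, hv', inner_sub_right, ho.inner_prj, sub_self, mul_zero]
    have he' : Orthonormal ℝ (Fin.cons w e : Fin (n + 1) → V) := by
      constructor
      · intro i
        refine Fin.cases ?_ (fun j => ?_) i
        · rw [Fin.cons_zero]; exact hw1
        · rw [Fin.cons_succ]; exact he.1 j
      · intro i j
        refine Fin.cases ?_ (fun i' => ?_) i
        · refine Fin.cases ?_ (fun j' => ?_) j
          · intro h; exact absurd rfl h
          · intro _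
            rw [Fin.cons_zero, Fin.cons_succ, real_inner_comm]; exact hwe j'
        · refine Fin.cases ?_ (fun j' => ?_) j
          · intro _
            rw [Fin.cons_zero, Fin.cons_succ]; exact hwe i'
          · intro h
            rw [Fin.cons_succ, Fin.cons_succ]
            exact he.2 fun hij => h (by rw [hij])
    have hmem : (∑ y ∈ B, ‖prj (Fin.cons w e : Fin (n + 1) → V) (f y)‖ ^ 2 -
        a * ((n + 1 : ℕ) : ℝ)) ∈ S := ⟨n + 1, Fin.cons w e, he', rfl⟩
    have hle := le_csSup hbd hmem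
    have hsum : ∑ y ∈ B, ‖prj (Fin.cons w e : Fin (n + 1) → V) (f y)‖ ^ 2 =
        qf B f w + ∑ y ∈ B, ‖prj e (f y)‖ ^ 2 := by
      unfold qf
      rw [← sum_add_distrib]
      refine sum_congr rfl fun y _ => ?_
      rw [(Ons.of_orthonormal he').norm_prj_sq, ho.norm_prj_sq, Fin.sum_univ_succ,
        Fin.cons_zero, real_inner_comm]
      simp only [Fin.cons_succ]
    rw [hsum] at hle
    push_cast at hle
    have hq : qf B f w ≤ 2 * a := by linarith
    have hvw : v' = ‖v'‖ • w := by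
      rw [hw, smul_smul, mul_inv_cancel₀ hpos.ne', one_smul]
    rw [hvw, qf_smul]
    have hw0 := qf_nonneg B f w
    calc ‖v'‖ ^ 2 * qf B f w ≤ 1 * qf B f w :=
          mul_le_mul_of_nonneg_right (pow_le_one₀ (norm_nonneg _) hn) hw0
      _ ≤ 2 * a := by linarith

/-- **One fibre**, exact rank, the vectors in the span of the values of `f`. -/
theorem exists_ons_span2 {a : ℝ} (ha : 0 < a) (B : Finset ℤ) (f : ℤ → V) :
    ∃ (n : ℕ) (e : Fin n → V), Orthonormal ℝ e ∧ (∀ i, e i ∈ Submodule.span ℝ (f '' (B : Set ℤ))) ∧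
      a * n ≤ ∑ y ∈ B, ‖prj e (f y)‖ ^ 2 ∧ opn B (fun y => f y - prj e (f y)) ≤ 2 * a := by
  classical
  set W : Submodule ℝ V := Submodule.span ℝ (f '' (B : Set ℤ)) with hW
  have hfin : (f '' (B : Set ℤ)).Finite := B.finite_toSet.image f
  have hfd : FiniteDimensional ℝ W := FiniteDimensional.span_of_finite ℝ hfin
  have hmem : ∀ y ∈ B, f y ∈ W := fun y hy =>
    Submodule.subset_span ⟨y, by exact_mod_cast hy, rfl⟩
  set f' : ℤ → W := fun y => if h : y ∈ B then ⟨f y, hmem y h⟩ else 0 with hf'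
  have hf : ∀ y ∈ B, ((f' y : W) : V) = f y := fun y hy => by simp only [hf', dif_pos hy]
  obtain ⟨n, e, he, hn, ho⟩ := exists_ons2 ha B f'
  have hprj : ∀ y ∈ B, prj (fun i => (e i : V)) (f y) = ((prj e (f' y) : W) : V) := by
    intro y hy
    unfold prj
    rw [Submodule.coe_sum]
    refine sum_congr rfl fun i _ => ?_
    rw [Submodule.coe_smul, Submodule.coe_inner, hf y hy]
  refine ⟨n, fun i => (e i : V), ?_, fun i => (e i).2, ?_, ?_⟩
  · exact he.comp_linearIsometry W.subtypeₗᵢ
  · refine hn.trans (le_of_eq (sum_congr rfl fun y hy => ?_))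
    rw [hprj y hy]; rfl
  · refine opn_le fun v hv => ?_
    set v' : W := W.orthogonalProjectionOnto v with hv'
    have hv1 : ‖v'‖ ≤ 1 := (W.norm_orthogonalProjectionOnto_apply_le v).trans hv
    have h1 := le_opn B (fun y => f' y - prj e (f' y)) hv1
    refine (le_of_eq ?_).trans (h1.trans ho)
    unfold qf
    refine sum_congr rfl fun y hy => ?_
    congr 1
    have h2 : f y - prj (fun i => (e i : V)) (f y) = ((f' y - prj e (f' y) : W) : V) := by
      rw [Submodule.coe_sub, hf y hy, hprj y hy]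
    show (inner ℝ (f y - prj (fun i => (e i : V)) (f y)) v : ℝ) =
      inner ℝ (f' y - prj e (f' y)) v'
    rw [h2, ← Submodule.inner_orthogonalProjectionOnto_eq_of_mem_left]

open Classical in
/-- The number of nonzero vectors. -/
def rk {n : ℕ} (e : Fin n → V) : ℕ := ((univ : Finset (Fin n)).filter fun i => e i ≠ 0).card

open Classical in
theorem rk_le {n : ℕ} (e : Fin n → V) : rk e ≤ n := by
  unfold rk
  exact (card_filter_le _ _).trans (by rw [card_univ, Fintype.card_fin])

open Classical in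
/-- The energy of a function along the system: at most the rank times its potential. -/
theorem Ons.sum_inner_le {n : ℕ} {e : Fin n → V} (he : Ons e) (C : Finset ℤ) (v : ℤ → V) :
    ∑ z ∈ C, ∑ i, (inner ℝ (e i) (v z) : ℝ) ^ 2 ≤ rk e * opn C v := by
  rw [sum_comm]
  have h : ∑ i, ∑ z ∈ C, (inner ℝ (e i) (v z) : ℝ) ^ 2 =
      ∑ i ∈ (univ : Finset (Fin n)).filter (fun i => e i ≠ 0),
        ∑ z ∈ C, (inner ℝ (e i) (v z) : ℝ) ^ 2 := by
    symm
    refine sum_subset (filter_subset _ _) fun i _ hi => ?_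
    have h0 : e i = 0 := by
      by_contra hcon
      exact hi (mem_filter.mpr ⟨mem_univ _, hcon⟩)
    rw [h0]
    simp
  rw [h]
  have h2 : ∀ i ∈ (univ : Finset (Fin n)).filter (fun i => e i ≠ 0),
      ∑ z ∈ C, (inner ℝ (e i) (v z) : ℝ) ^ 2 ≤ opn C v := by
    intro i _
    have h1 := le_opn C v (he.norm_le i)
    refine (le_of_eq ?_).trans h1
    unfold qf
    exact sum_congr rfl fun z _ => by rw [real_inner_comm]
  refine (sum_le_sum h2).trans (le_of_eq ?_)
  rw [sum_const, nsmul_eq_mul]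
  rfl

/-- **One fibre**, exact rank, with a fixed number of vectors. -/
theorem exists_ons_fin2 {a : ℝ} (ha : 0 < a) {n : ℕ} {B : Finset ℤ} {f : ℤ → V}
    (hn : nrg B f ≤ a * n) :
    ∃ e : Fin n → V, Ons e ∧ (∀ i, e i ∈ Submodule.span ℝ (f '' (B : Set ℤ))) ∧
      a * rk e ≤ ∑ y ∈ B, ‖prj e (f y)‖ ^ 2 ∧
      opn B (fun y => f y - prj e (f y)) ≤ 2 * a := by
  classical
  obtain ⟨m, e, he, hsp, hm, ho⟩ := exists_ons_span2 ha B f
  have hO := Ons.of_orthonormal he
  have hmn : m ≤ n := by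
    have h0 : ∑ y ∈ B, ‖prj e (f y)‖ ^ 2 ≤ nrg B f :=
      sum_le_sum fun y _ => pow_le_pow_left₀ (norm_nonneg _) (hO.norm_prj_le (f y)) 2
    have h1 : a * m ≤ a * n := by linarith
    have h2 : (m : ℝ) ≤ n := le_of_mul_le_mul_left h1 ha
    exact_mod_cast h2
  set e' : Fin n → V := fun i => if h : i.1 < m then e ⟨i.1, h⟩ else 0 with he'
  have hO' : Ons e' := by
    constructor
    · intro i j hij
      by_cases h1 : i.1 < m
      · by_cases h2 : j.1 < m
        · simp only [he', dif_pos h1, dif_pos h2]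
          refine hO.orth _ _ fun h => hij ?_
          have := congrArg Fin.val h
          exact Fin.ext this
        · simp only [he', dif_neg h2]; exact inner_zero_right _
      · simp only [he', dif_neg h1]; exact inner_zero_left _
    · intro i
      by_cases h1 : i.1 < m
      · simp only [he', dif_pos h1]; exact hO.unit _
      · simp only [he', dif_neg h1]; exact Or.inl trivial
  have hp : ∀ v, prj e' v = prj e v := by
    intro v
    unfold prj
    have h1 : ∑ i : Fin n, (inner ℝ (e' i) v : ℝ) • e' i =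
        ∑ i ∈ (univ : Finset (Fin n)).filter (fun i => i.1 < m), (inner ℝ (e' i) v : ℝ) • e' i := by
      rw [sum_filter_of_ne]
      intro i _ hne
      by_contra hcon
      apply hne
      simp only [he', dif_neg hcon, smul_zero]
    rw [h1]
    symm
    refine sum_bij (fun (i : Fin m) _ => (⟨i.1, by omega⟩ : Fin n)) ?_ ?_ ?_ ?_
    · intro i _
      rw [mem_filter]
      exact ⟨mem_univ _, i.2⟩
    · intro i _ j _ h
      have := congrArg Fin.val h
      exact Fin.ext this
    · intro j hj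
      rw [mem_filter] at hj
      exact ⟨⟨j.1, hj.2⟩, mem_univ _, rfl⟩
    · intro i _
      have : e' ⟨i.1, by omega⟩ = e i := by
        simp only [he', dif_pos i.2]
      rw [this]
  have hrk : rk e' ≤ m := by
    unfold rk
    have hsub : (univ : Finset (Fin n)).filter (fun i => e' i ≠ 0) ⊆
        (univ : Finset (Fin m)).image fun i => (⟨i.1, by omega⟩ : Fin n) := by
      intro i hi
      rw [mem_filter] at hi
      have h1 : i.1 < m := by
        by_contra hcon
        exact hi.2 (by simp only [he', dif_neg hcon])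
      rw [mem_image]
      exact ⟨⟨i.1, h1⟩, mem_univ _, rfl⟩
    exact (card_le_card hsub).trans (card_image_le.trans (by rw [card_univ, Fintype.card_fin]))
  refine ⟨e', hO', fun i => ?_, ?_, ?_⟩
  · by_cases h1 : i.1 < m
    · simp only [he', dif_pos h1]; exact hsp _
    · simp only [he', dif_neg h1]; exact Submodule.zero_mem _
  · have h1 : a * rk e' ≤ a * m := mul_le_mul_of_nonneg_left (by exact_mod_cast hrk) ha.le
    refine h1.trans (hm.trans (le_of_eq ?_))
    exact sum_congr rfl fun y _ => by rw [hp]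
  have : (fun y => f y - prj e' (f y)) = fun y => f y - prj e (f y) := by
    funext y; rw [hp]
  rw [this]
  exact ho

open Classical in
/-- The chosen system of `n` vectors on the interval `B` at the level `a`; only the values on `B`
matter. -/
def sys2 (n : ℕ) (a : ℝ) (B : Finset ℤ) (f : ℤ → V) : Fin n → V :=
  if h : ∃ e : Fin n → V, Ons e ∧
    (∀ i, e i ∈ Submodule.span ℝ ((B : Set ℤ).indicator f '' (B : Set ℤ))) ∧
    a * rk e ≤ ∑ y ∈ B, ‖prj e ((B : Set ℤ).indicator f y)‖ ^ 2 ∧
    opn B (fun y => (B : Set ℤ).indicator f y - prj e ((B : Set ℤ).indicator f y)) ≤ 2 * a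
  then h.choose else fun _ => 0

theorem ons_sys2 (n : ℕ) (a : ℝ) (B : Finset ℤ) (f : ℤ → V) : Ons (sys2 n a B f) := by
  unfold sys2
  split_ifs with h
  · exact h.choose_spec.1
  · exact Ons.zero

theorem sys2_congr {n : ℕ} {a : ℝ} {B : Finset ℤ} {f g : ℤ → V} (h : ∀ y ∈ B, f y = g y) :
    sys2 n a B f = sys2 n a B g := by
  have : (B : Set ℤ).indicator f = (B : Set ℤ).indicator g := by
    funext y
    by_cases hy : y ∈ (B : Set ℤ)
    · rw [Set.indicator_of_mem hy, Set.indicator_of_mem hy]; exact h y (by exact_mod_cast hy)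
    · rw [Set.indicator_of_notMem hy, Set.indicator_of_notMem hy]
  unfold sys2
  rw [this]

/-- The vectors are in the span of the values. -/
theorem sys2_mem (n : ℕ) (a : ℝ) (B : Finset ℤ) (f : ℤ → V) (i : Fin n) :
    sys2 n a B f i ∈ Submodule.span ℝ (f '' (B : Set ℤ)) := by
  unfold sys2
  split_ifs with h
  · exact (le_of_eq (congrArg (Submodule.span ℝ) (ind_image B f))) (h.choose_spec.2.1 i)
  · exact Submodule.zero_mem _

/-- A vector orthogonal to all the values is orthogonal to the system. -/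
theorem inner_sys2 {n : ℕ} {a : ℝ} {B : Finset ℤ} {f : ℤ → V} {v : V}
    (h : ∀ y ∈ B, (inner ℝ (f y) v : ℝ) = 0) (i : Fin n) :
    (inner ℝ (sys2 n a B f i) v : ℝ) = 0 := by
  have h1 := sys2_mem n a B f i
  refine Submodule.span_induction (p := fun z _ => (inner ℝ z v : ℝ) = 0) ?_ ?_ ?_ ?_ h1
  · rintro _ ⟨y, hy, rfl⟩
    exact h y (by exact_mod_cast hy)
  · exact inner_zero_left v
  · intro x y _ _ hx hy
    rw [inner_add_left, hx, hy, add_zero]
  · intro c x _ hx
    rw [real_inner_smul_left, hx, mul_zero]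

/-- **The exact rank bound** (no hypothesis). -/
theorem rk_sys2 (n : ℕ) (a : ℝ) (B : Finset ℤ) (f : ℤ → V) :
    a * rk (sys2 n a B f) ≤ ∑ y ∈ B, ‖prj (sys2 n a B f) (f y)‖ ^ 2 := by
  classical
  have hi : ∀ y ∈ B, (B : Set ℤ).indicator f y = f y := fun y hy =>
    Set.indicator_of_mem (by exact_mod_cast hy) f
  by_cases h : ∃ e : Fin n → V, Ons e ∧
      (∀ i, e i ∈ Submodule.span ℝ ((B : Set ℤ).indicator f '' (B : Set ℤ))) ∧
      a * rk e ≤ ∑ y ∈ B, ‖prj e ((B : Set ℤ).indicator f y)‖ ^ 2 ∧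
      opn B (fun y => (B : Set ℤ).indicator f y - prj e ((B : Set ℤ).indicator f y)) ≤ 2 * a
  · have h3 : sys2 n a B f = h.choose := by
      unfold sys2; rw [dif_pos h]
    rw [h3]
    refine h.choose_spec.2.2.1.trans (le_of_eq ?_)
    exact sum_congr rfl fun y hy => by rw [hi y hy]
  · have h3 : sys2 n a B f = fun _ => 0 := by
      unfold sys2; rw [dif_neg h]
    rw [h3]
    have h4 : rk (fun _ : Fin n => (0 : V)) = 0 := by
      unfold rk
      rw [card_eq_zero, filter_eq_empty_iff]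
      intro i _
      simp
    rw [h4]
    simp only [Nat.cast_zero, mul_zero]
    exact sum_nonneg fun _ _ => sq_nonneg _

theorem opn_sys2 {n : ℕ} {a : ℝ} (ha : 0 < a) {B : Finset ℤ} {f : ℤ → V}
    (hn : nrg B f ≤ a * n) :
    opn B (fun y => f y - prj (sys2 n a B f) (f y)) ≤ 2 * a := by
  classical
  have hi : ∀ y ∈ B, (B : Set ℤ).indicator f y = f y := fun y hy =>
    Set.indicator_of_mem (by exact_mod_cast hy) f
  have hn' : nrg B ((B : Set ℤ).indicator f) ≤ a * n := by
    refine (le_of_eq ?_).trans hn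
    unfold nrg
    exact sum_congr rfl fun y hy => by rw [hi y hy]
  have h : ∃ e : Fin n → V, Ons e ∧
      (∀ i, e i ∈ Submodule.span ℝ ((B : Set ℤ).indicator f '' (B : Set ℤ))) ∧
      a * rk e ≤ ∑ y ∈ B, ‖prj e ((B : Set ℤ).indicator f y)‖ ^ 2 ∧
      opn B (fun y => (B : Set ℤ).indicator f y - prj e ((B : Set ℤ).indicator f y)) ≤ 2 * a :=
    exists_ons_fin2 ha hn'
  have h2 := h.choose_spec.2.2.2
  have h3 : sys2 n a B f = h.choose := by
    unfold sys2; rw [dif_pos h]
  rw [h3]
  refine (le_of_eq ?_).trans h2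
  exact opn_congr fun y hy => by rw [hi y hy]

/-- The energy of a second function along the removed directions, against the removed energy. -/
theorem sum_sys2_le {n : ℕ} {a : ℝ} (ha : 0 < a) (B : Finset ℤ) (f : ℤ → V) (C : Finset ℤ)
    (v : ℤ → V) {κ : ℝ} (hκ : opn C v ≤ κ) :
    a * ∑ z ∈ C, ∑ i, (inner ℝ (sys2 n a B f i) (v z) : ℝ) ^ 2 ≤
      κ * ∑ y ∈ B, ‖prj (sys2 n a B f) (f y)‖ ^ 2 := by
  have h1 := (ons_sys2 n a B f).sum_inner_le C v
  have h2 := rk_sys2 n a B f
  have hκ0 : 0 ≤ κ := (opn_nonneg C v).trans hκ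
  calc a * ∑ z ∈ C, ∑ i, (inner ℝ (sys2 n a B f i) (v z) : ℝ) ^ 2
      ≤ a * (rk (sys2 n a B f) * opn C v) := mul_le_mul_of_nonneg_left h1 ha.le
    _ ≤ a * (rk (sys2 n a B f) * κ) :=
        mul_le_mul_of_nonneg_left (mul_le_mul_of_nonneg_left hκ (Nat.cast_nonneg _)) ha.le
    _ = κ * (a * rk (sys2 n a B f)) := by ring
    _ ≤ _ := mul_le_mul_of_nonneg_left h2 hκ0

end

end Vale.Agent.P141.H70
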